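import Vale.Agent.P363.R.H10.Sym

/-! Potentials of bounded integrable densities with power kernels `‖x - y‖ ^ (-p)`, `p < 3`. -/

namespace Vale.Agent.P370.H696

open MeasureTheory Set
open scoped RealInnerProductSpace
open Vale.Agent.P363.Stmt (R3)
open Vale.Agent.P363.R.H10

noncomputable section

/-- truncated power kernel -/
def ker (p : ℝ) (r : ℝ) : ℝ := if r < 1 then r ^ (-p) else 0

lemma ker_nonneg (p : ℝ) {r : ℝ} (hr : 0 ≤ r) : 0 ≤ ker p r := by
  unfold ker; split_ifs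
  · exact Real.rpow_nonneg hr _
  · exact le_rfl

lemma sq_mul_ker (p : ℝ) {r : ℝ} (hr : 0 < r) :
    r ^ 2 * ker p r = if r < 1 then r ^ (2 - p) else 0 := by
  unfold ker; split_ifs
  · rw [← Real.rpow_natCast, ← Real.rpow_add hr]; norm_num; congr 1
  · simp

lemma integrableOn_ker {p : ℝ} (hp : p < 3) : IntegrableOn (fun r => r ^ 2 * ker p r) (Ioi 0) := by
  have h1 : IntegrableOn (fun r : ℝ => r ^ (2 - p)) (Ioc 0 1) := by
    rw [← intervalIntegrable_iff_integrableOn_Ioc_of_le zero_le_one]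
    exact intervalIntegral.intervalIntegrable_rpow' (by linarith)
  have h2 : Integrable ((Ioo (0:ℝ) 1).indicator (fun r : ℝ => r ^ (2 - p))) :=
    (integrable_indicator_iff measurableSet_Ioo).2 (h1.mono_set Ioo_subset_Ioc_self)
  refine h2.integrableOn.congr_fun ?_ measurableSet_Ioi
  intro r hr
  have hr' : 0 < r := hr
  simp only [indicator, mem_Ioo]
  rw [sq_mul_ker p hr']
  simp [hr']

lemma integral_ker {p : ℝ} (hp : p < 3) :
    ∫ r in Ioi (0 : ℝ), r ^ 2 * ker p r = 1 / (3 - p) := by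
  have e : ∫ r in Ioi (0 : ℝ), r ^ 2 * ker p r
      = ∫ r in Ioi (0 : ℝ), (Iio (1:ℝ)).indicator (fun r : ℝ => r ^ (2 - p)) r := by
    refine setIntegral_congr_fun measurableSet_Ioi fun r hr => ?_
    have hr' : 0 < r := hr
    simp only [indicator, mem_Iio]
    rw [sq_mul_ker p hr']
  rw [e, setIntegral_indicator measurableSet_Iio, Ioi_inter_Iio, ← integral_Ioc_eq_integral_Ioo,
    ← intervalIntegral.integral_of_le zero_le_one, integral_rpow (Or.inl (by linarith))]
  have h3 : (2 - p + 1) = 3 - p := by ring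
  rw [h3, Real.one_rpow, Real.zero_rpow (by linarith)]
  ring

lemma integrable_ker {p : ℝ} (hp : p < 3) : Integrable (fun z : R3 => ker p ‖z‖) :=
  integrable_radial.2 (integrableOn_ker hp)

lemma integral_ker3 {p : ℝ} (hp : p < 3) : ∫ z : R3, ker p ‖z‖ = 4 * Real.pi / (3 - p) := by
  rw [integral_radial, integral_ker hp]; ring

lemma rpow_le_ker {p : ℝ} (hp : 0 ≤ p) {r : ℝ} (_hr : 0 ≤ r) : r ^ (-p) ≤ ker p r + 1 := by
  unfold ker; split_ifs with h
  · linarith
  · push Not at h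
    have : r ^ (-p) ≤ 1 := Real.rpow_le_one_of_one_le_of_nonpos h (by linarith)
    linarith

/-- bounded integrable densities -/
structure Dens (q : R3 → ℝ) (N : ℝ) : Prop where
  int : Integrable q
  sup : ∀ x, |q x| ≤ N
  l1 : ∫ x, |q x| ≤ N

lemma Dens.nonneg {q : R3 → ℝ} {N : ℝ} (h : Dens q N) : 0 ≤ N := (abs_nonneg _).trans (h.sup 0)

lemma measurable_rpow_norm (p : ℝ) (y : R3) : Measurable (fun x : R3 => ‖x - y‖ ^ (-p)) := by
  fun_prop

lemma Dens.maj {q : R3 → ℝ} {N : ℝ} (h : Dens q N) {p : ℝ} (hp0 : 0 ≤ p) (y x : R3) :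
    |q x| * ‖x - y‖ ^ (-p) ≤ N * ker p ‖x - y‖ + |q x| := by
  have h1 := rpow_le_ker hp0 (norm_nonneg (x - y))
  have h2 := ker_nonneg p (norm_nonneg (x - y))
  calc |q x| * ‖x - y‖ ^ (-p) ≤ |q x| * (ker p ‖x - y‖ + 1) :=
        mul_le_mul_of_nonneg_left h1 (abs_nonneg _)
    _ = |q x| * ker p ‖x - y‖ + |q x| := by ring
    _ ≤ _ := by
        have := mul_le_mul_of_nonneg_right (h.sup x) h2
        linarith

lemma Dens.maj_int {q : R3 → ℝ} {N : ℝ} (h : Dens q N) {p : ℝ} (hp : p < 3) (y : R3) :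
    Integrable (fun x => N * ker p ‖x - y‖ + |q x|) :=
  (((integrable_ker hp).comp_sub_right y).const_mul N).add h.int.abs

lemma Dens.integrable {q : R3 → ℝ} {N : ℝ} (h : Dens q N) {p : ℝ} (hp0 : 0 ≤ p) (hp : p < 3)
    (y : R3) : Integrable (fun x => |q x| * ‖x - y‖ ^ (-p)) := by
  refine (h.maj_int hp y).mono' (h.int.abs.aestronglyMeasurable.mul
    (measurable_rpow_norm p y).aestronglyMeasurable) (ae_of_all _ fun x => ?_)
  rw [Real.norm_of_nonneg (mul_nonneg (abs_nonneg _) (Real.rpow_nonneg (norm_nonneg _) _))]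
  exact h.maj hp0 y x

lemma Dens.le {q : R3 → ℝ} {N : ℝ} (h : Dens q N) {p : ℝ} (hp0 : 0 ≤ p) (hp : p < 3) (y : R3) :
    ∫ x, |q x| * ‖x - y‖ ^ (-p) ≤ (4 * Real.pi / (3 - p) + 1) * N := by
  calc ∫ x, |q x| * ‖x - y‖ ^ (-p) ≤ ∫ x, (N * ker p ‖x - y‖ + |q x|) :=
        integral_mono (h.integrable hp0 hp y) (h.maj_int hp y) (h.maj hp0 y)
    _ = N * (4 * Real.pi / (3 - p)) + ∫ x, |q x| := by
        rw [integral_add (((integrable_ker hp).comp_sub_right y).const_mul N) h.int.abs,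
          integral_const_mul, integral_sub_right_eq_self (fun x : R3 => ker p ‖x‖), integral_ker3 hp]
    _ ≤ _ := by have := h.l1; linarith

end

end Vale.Agent.P370.H696
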