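import Vale.Agent.P363.R.H10.Sym
import Vale.Agent.P370.H696.Pot

/-! A smoothed ball: its potential is exactly quadratic near the centre. -/

namespace Vale.Agent.P370.H696

open MeasureTheory Set
open scoped RealInnerProductSpace
open Vale.Agent.P363.Stmt (R3)
open Vale.Agent.P363.R.H10

noncomputable section

/-- cut-off: one for `r ≤ 1/2`, zero for `r ≥ 1` -/
def chi (r : ℝ) : ℝ := max 0 (min 1 (2 - 2 * r))

lemma continuous_chi : Continuous chi := by unfold chi; fun_prop

lemma chi_nonneg (r : ℝ) : 0 ≤ chi r := le_max_left _ _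

lemma chi_le_one (r : ℝ) : chi r ≤ 1 := max_le zero_le_one (min_le_left _ _)

lemma chi_one {r : ℝ} (h : r ≤ 1 / 2) : chi r = 1 := by
  unfold chi
  rw [min_eq_left (by linarith), max_eq_right zero_le_one]

lemma chi_zero {r : ℝ} (h : 1 ≤ r) : chi r = 0 := by
  unfold chi
  rw [max_eq_left]
  exact (min_le_right _ _).trans (by linarith)

/-- second derivative of the profile -/
def c2 (r : ℝ) : ℝ := r * chi r

/-- first derivative of the profile -/
def c1 (r : ℝ) : ℝ := ∫ s in (1:ℝ)..r, c2 s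

/-- profile -/
def c0 (r : ℝ) : ℝ := ∫ s in (1:ℝ)..r, c1 s

lemma continuous_c2 : Continuous c2 := by
  unfold c2; exact continuous_id.mul continuous_chi

lemma hasDerivAt_c1 (r : ℝ) : HasDerivAt c1 (c2 r) r :=
  (continuous_c2.integral_hasStrictDerivAt 1 r).hasDerivAt

lemma continuous_c1 : Continuous c1 :=
  continuous_iff_continuousAt.2 fun r => (hasDerivAt_c1 r).continuousAt

lemma hasDerivAt_c0 (r : ℝ) : HasDerivAt c0 (c1 r) r :=
  (continuous_c1.integral_hasStrictDerivAt 1 r).hasDerivAt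

lemma continuous_c0 : Continuous c0 :=
  continuous_iff_continuousAt.2 fun r => (hasDerivAt_c0 r).continuousAt

lemma c2_zero {r : ℝ} (h : 1 ≤ r) : c2 r = 0 := by simp [c2, chi_zero h]

lemma c1_zero {r : ℝ} (h : 1 ≤ r) : c1 r = 0 := by
  unfold c1
  rw [intervalIntegral.integral_congr (g := fun _ => (0:ℝ))]
  · simp
  · intro s hs
    rw [uIcc_of_le h] at hs
    exact c2_zero hs.1

lemma c0_zero {r : ℝ} (h : 1 ≤ r) : c0 r = 0 := by
  unfold c0
  rw [intervalIntegral.integral_congr (g := fun _ => (0:ℝ))]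
  · simp
  · intro s hs
    rw [uIcc_of_le h] at hs
    exact c1_zero hs.1

lemma dec_of_zero {f : ℝ → ℝ} (hf : Continuous f) (h0 : ∀ r, 1 ≤ r → f r = 0) : Dec f := by
  intro n
  obtain ⟨C, hC⟩ := (isCompact_Icc (a := (0:ℝ)) (b := 1)).exists_bound_of_continuousOn
    hf.continuousOn
  have hC0 : 0 ≤ C := (norm_nonneg _).trans (hC 0 (by simp))
  refine ⟨C * 2 ^ n, fun r hr => ?_⟩
  rcases le_total r 1 with h | h
  · rw [le_div_iff₀ (by positivity)]
    have h1 : |f r| ≤ C := hC r ⟨hr, h⟩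
    have h2 : (1 + r) ^ n ≤ 2 ^ n := pow_le_pow_left₀ (by linarith) (by linarith) n
    exact mul_le_mul h1 h2 (by positivity) hC0
  · rw [h0 r h, abs_zero]; positivity

lemma rad_c : Rad c0 c1 c2 where
  d1 := hasDerivAt_c0
  d2 := hasDerivAt_c1
  c2 := continuous_c2
  dec := dec_of_zero continuous_c0 fun _ => c0_zero
  dec1 := dec_of_zero continuous_c1 fun _ => c1_zero
  dec2 := dec_of_zero continuous_c2 fun _ => c2_zero

lemma c1_eq {r : ℝ} (h0 : 0 ≤ r) (h : r ≤ 1 / 2) : c1 r = c1 0 + r ^ 2 / 2 := by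
  have h1 : c1 r = c1 0 + ∫ s in (0:ℝ)..r, c2 s := by
    unfold c1
    rw [intervalIntegral.integral_add_adjacent_intervals]
    · exact continuous_c2.intervalIntegrable _ _
    · exact continuous_c2.intervalIntegrable _ _
  rw [h1, intervalIntegral.integral_congr (g := fun s => s)]
  · rw [integral_id]; ring
  · intro s hs
    rw [uIcc_of_le h0] at hs
    simp [c2, chi_one (hs.2.trans h)]

lemma c0_eq {r : ℝ} (h0 : 0 ≤ r) (h : r ≤ 1 / 2) : c0 r = c0 0 + c1 0 * r + r ^ 3 / 6 := by
  have h1 : c0 r = c0 0 + ∫ s in (0:ℝ)..r, c1 s := by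
    unfold c0
    rw [intervalIntegral.integral_add_adjacent_intervals]
    · exact continuous_c1.intervalIntegrable _ _
    · exact continuous_c1.intervalIntegrable _ _
  rw [h1, intervalIntegral.integral_congr (g := fun s => c1 0 + s ^ 2 / 2)]
  · rw [intervalIntegral.integral_add
      ((continuous_const (y := c1 0)).intervalIntegrable _ _)
      ((by fun_prop : Continuous fun s : ℝ => s ^ 2 / 2).intervalIntegrable _ _)]
    rw [intervalIntegral.integral_const, intervalIntegral.integral_div, integral_pow]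
    simp only [smul_eq_mul]; norm_num; ring
  · intro s hs
    rw [uIcc_of_le h0] at hs
    exact c1_eq hs.1 (hs.2.trans h)

/-- potential of the smoothed ball -/
def PB (x : R3) : ℝ := ∫ y : R3, chi ‖y‖ / ‖x - y‖

lemma PB_eq {x : R3} (hx : ‖x‖ ≤ 1 / 2) : PB x = PB 0 - 2 * Real.pi / 3 * ‖x‖ ^ 2 := by
  have hae : ∀ x : R3, PB x = ∫ y : R3, c2 ‖y‖ / ‖y‖ / ‖x - y‖ := by
    intro x
    refine integral_congr_ae ?_
    filter_upwards [ae_ne_zero] with y hy
    have : ‖y‖ ≠ 0 := norm_ne_zero_iff.2 hy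
    unfold c2
    field_simp
  have h00 : PB 0 = - (4 * Real.pi * c1 0) := by
    have e : PB 0 = ∫ y : R3, chi ‖y‖ / ‖y‖ := by
      unfold PB; simp
    rw [e, integral_radial (fun r => chi r / r)]
    have e2 : ∫ r in Ioi (0:ℝ), r ^ 2 * (chi r / r) = ∫ r in Ioi (0:ℝ), c2 r := by
      refine setIntegral_congr_fun measurableSet_Ioi fun r hr => ?_
      have hr' : r ≠ 0 := ne_of_gt hr
      simp only [c2]
      field_simp
    have e3 : ∫ r in Ioi (0:ℝ), c2 r = ∫ r in Ioc (0:ℝ) 1, c2 r := by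
      refine setIntegral_eq_of_subset_of_forall_sdiff_eq_zero measurableSet_Ioi
        Ioc_subset_Ioi_self fun r hr => ?_
      apply c2_zero
      by_contra hc
      exact hr.2 ⟨hr.1, by linarith⟩
    rw [e2, e3, ← intervalIntegral.integral_of_le zero_le_one,
      intervalIntegral.integral_symm]
    unfold c1; ring
  rcases eq_or_ne x 0 with rfl | hx0
  · simp
  · rw [hae x, newton rad_c hx0, h00]
    unfold VV
    have hr : ‖x‖ ≠ 0 := norm_ne_zero_iff.2 hx0
    rw [c0_eq (norm_nonneg x) hx]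
    field_simp
    ring

end

end Vale.Agent.P370.H696
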