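import Mathlib.Analysis.InnerProductSpace.Basic

/-! Third order Taylor estimate for the Coulomb kernel `1/‖z - w‖`. -/

namespace Vale.Agent.P370.H696

open scoped RealInnerProductSpace

/-- scalar inequality: `1/q` against its second order Taylor polynomial in `1 - q²` -/
lemma inv_taylor {q : ℝ} (hq : 1 / 2 ≤ q) :
    |1 / q - 1 - (1 - q ^ 2) / 2 - 3 * (1 - q ^ 2) ^ 2 / 8| ≤ |1 - q ^ 2| ^ 3 := by
  have hq0 : 0 < q := by linarith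
  have e : 1 / q - 1 - (1 - q ^ 2) / 2 - 3 * (1 - q ^ 2) ^ 2 / 8
      = (1 - q) ^ 3 * ((3 * q ^ 2 + 9 * q + 8) / (8 * q)) := by
    field_simp; ring
  have e2 : |1 - q ^ 2| ^ 3 = |1 - q| ^ 3 * (1 + q) ^ 3 := by
    rw [show 1 - q ^ 2 = (1 - q) * (1 + q) by ring, abs_mul, mul_pow,
      abs_of_pos (by linarith : (0:ℝ) < 1 + q)]
  rw [e, e2, abs_mul, abs_pow]
  refine mul_le_mul_of_nonneg_left ?_ (by positivity)
  rw [abs_of_nonneg (by positivity), div_le_iff₀ (by positivity)]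
  nlinarith [mul_nonneg (sub_nonneg.2 hq) hq0.le, pow_pos hq0 2, pow_pos hq0 3, pow_pos hq0 4]

lemma scalar_taylor {q g t : ℝ} (hq : 1 / 2 ≤ q) (ht0 : 0 ≤ t) (ht1 : t ≤ 1 / 2) (hga : |g| ≤ t)
    (hu : 1 - q ^ 2 = 2 * g - t ^ 2) :
    |1 / q - 1 - g - (3 * g ^ 2 - t ^ 2) / 2| ≤ 18 * t ^ 3 := by
  have hT := inv_taylor hq
  rw [hu] at hT
  obtain ⟨hg1, hg2⟩ := abs_le.1 hga
  have ht2 : 0 ≤ t ^ 2 := by positivity
  have ht3 : 0 ≤ t ^ 3 := by positivity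
  have ht4 : t ^ 4 ≤ 1 / 2 * t ^ 3 := by
    have : t ^ 4 = t ^ 3 * t := by ring
    rw [this, mul_comm (1 / 2 : ℝ)]
    exact mul_le_mul_of_nonneg_left ht1 ht3
  have ht4' : 0 ≤ t ^ 4 := by positivity
  have htt : t ^ 2 ≤ 1 / 2 * t := by nlinarith
  have hu3 : |2 * g - t ^ 2| ^ 3 ≤ (5 / 2 * t) ^ 3 := by
    refine pow_le_pow_left₀ (abs_nonneg _) ?_ 3
    rw [abs_le]
    constructor <;> linarith
  have hgt1 : g * t ^ 2 ≤ t ^ 3 := by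
    have : t ^ 3 = t * t ^ 2 := by ring
    rw [this]; exact mul_le_mul_of_nonneg_right hg2 ht2
  have hgt2 : - t ^ 3 ≤ g * t ^ 2 := by
    have : - t ^ 3 = (-t) * t ^ 2 := by ring
    rw [this]; exact mul_le_mul_of_nonneg_right hg1 ht2
  have hb : |-(3 / 2) * (g * t ^ 2) + 3 / 8 * t ^ 4| ≤ 2 * t ^ 3 := by
    rw [abs_le]
    constructor <;> linarith
  have e : 1 / q - 1 - g - (3 * g ^ 2 - t ^ 2) / 2
      = (1 / q - 1 - (2 * g - t ^ 2) / 2 - 3 * (2 * g - t ^ 2) ^ 2 / 8)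
          + (-(3 / 2) * (g * t ^ 2) + 3 / 8 * t ^ 4) := by ring
  rw [e]
  refine (abs_add_le _ _).trans ?_
  have h5 : (5 / 2 * t) ^ 3 = 125 / 8 * t ^ 3 := by ring
  linarith

variable {E : Type*} [NormedAddCommGroup E] [InnerProductSpace ℝ E]

/-- **Third order Taylor estimate** of the Coulomb kernel. -/
theorem kernel_taylor {z w : E} (h : 2 * ‖w‖ ≤ ‖z‖) (hz : z ≠ 0) :
    |1 / ‖z - w‖ - 1 / ‖z‖ - ⟪z, w⟫ / ‖z‖ ^ 3
      - (3 * ⟪z, w⟫ ^ 2 - ‖z‖ ^ 2 * ‖w‖ ^ 2) / (2 * ‖z‖ ^ 5)| ≤ 18 * ‖w‖ ^ 3 / ‖z‖ ^ 4 := by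
  have hr : 0 < ‖z‖ := norm_pos_iff.2 hz
  have hs : 0 ≤ ‖w‖ := norm_nonneg _
  have hpa : |⟪z, w⟫| ≤ ‖z‖ * ‖w‖ := abs_real_inner_le_norm z w
  have hd : ‖z - w‖ ^ 2 = ‖z‖ ^ 2 - 2 * ⟪z, w⟫ + ‖w‖ ^ 2 := by
    rw [@norm_sub_sq_real]
  have hdl : ‖z‖ / 2 ≤ ‖z - w‖ := by
    have := norm_sub_norm_le z w
    linarith
  generalize ‖z - w‖ = d at *
  generalize ⟪z, w⟫ = p at *
  generalize ‖z‖ = r at *
  generalize ‖w‖ = s at *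
  obtain ⟨q, hq⟩ : ∃ q, q = d / r := ⟨_, rfl⟩
  obtain ⟨t, ht⟩ : ∃ t, t = s / r := ⟨_, rfl⟩
  obtain ⟨g, hg⟩ : ∃ g, g = p / r ^ 2 := ⟨_, rfl⟩
  have hz' : d = q * r := by rw [hq]; field_simp
  have hpg : p = g * r ^ 2 := by rw [hg]; field_simp
  have hst : s = t * r := by rw [ht]; field_simp
  have hq1 : 1 / 2 ≤ q := by
    rw [hq, le_div_iff₀ hr]; linarith
  have ht0 : 0 ≤ t := by rw [ht]; positivity
  have ht1 : t ≤ 1 / 2 := by rw [ht, div_le_iff₀ hr]; linarith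
  have hga : |g| ≤ t := by
    rw [hg, abs_div, abs_of_pos (by positivity : (0:ℝ) < r ^ 2), ht,
      div_le_div_iff₀ (by positivity) hr]
    calc |p| * r ≤ (r * s) * r := mul_le_mul_of_nonneg_right hpa hr.le
      _ = s * r ^ 2 := by ring
  have hu : 1 - q ^ 2 = 2 * g - t ^ 2 := by
    rw [hz', hpg, hst] at hd
    have : r ^ 2 * (1 - q ^ 2) = r ^ 2 * (2 * g - t ^ 2) := by linarith
    exact mul_left_cancel₀ (by positivity) this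
  have hfin := scalar_taylor hq1 ht0 ht1 hga hu
  have hq0 : 0 < q := by linarith
  have e : 1 / d - 1 / r - p / r ^ 3 - (3 * p ^ 2 - r ^ 2 * s ^ 2) / (2 * r ^ 5)
      = (1 / r) * (1 / q - 1 - g - (3 * g ^ 2 - t ^ 2) / 2) := by
    rw [hz', hpg, hst]
    field_simp
  rw [e, abs_mul, abs_of_pos (by positivity : (0:ℝ) < 1 / r)]
  calc 1 / r * _ ≤ 1 / r * (18 * t ^ 3) := mul_le_mul_of_nonneg_left hfin (by positivity)
    _ = 18 * s ^ 3 / r ^ 4 := by rw [hst]; field_simp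

/-! ### fourth order, symmetrised -/

/-- scalar inequality: `1/q` against its third order Taylor polynomial in `1 - q²` -/
lemma inv_taylor4 {q : ℝ} (hq : 1 / 2 ≤ q) :
    |1 / q - 1 - (1 - q ^ 2) / 2 - 3 * (1 - q ^ 2) ^ 2 / 8 - 5 * (1 - q ^ 2) ^ 3 / 16|
      ≤ |1 - q ^ 2| ^ 4 := by
  have hq0 : 0 < q := by linarith
  have e : 1 / q - 1 - (1 - q ^ 2) / 2 - 3 * (1 - q ^ 2) ^ 2 / 8 - 5 * (1 - q ^ 2) ^ 3 / 16
      = (1 - q) ^ 4 * ((5 * q ^ 3 + 20 * q ^ 2 + 29 * q + 16) / (16 * q)) := by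
    field_simp; ring
  have e2 : |1 - q ^ 2| ^ 4 = |1 - q| ^ 4 * (1 + q) ^ 4 := by
    rw [show 1 - q ^ 2 = (1 - q) * (1 + q) by ring, abs_mul, mul_pow,
      abs_of_pos (by linarith : (0:ℝ) < 1 + q)]
  rw [e, e2, abs_mul, abs_pow]
  refine mul_le_mul_of_nonneg_left ?_ (by positivity)
  rw [abs_of_nonneg (by positivity), div_le_iff₀ (by positivity)]
  have h1 : 0 ≤ q - 1 / 2 := by linarith
  nlinarith [mul_nonneg h1 hq0.le, mul_nonneg h1 (pow_pos hq0 2).le,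
    mul_nonneg h1 (pow_pos hq0 3).le, mul_nonneg h1 (pow_pos hq0 4).le, pow_pos hq0 5]

lemma scalar_taylor4 {q₁ q₂ g t : ℝ} (hq₁ : 1 / 2 ≤ q₁) (hq₂ : 1 / 2 ≤ q₂) (ht0 : 0 ≤ t)
    (ht1 : t ≤ 1 / 2) (hga : |g| ≤ t) (hu₁ : 1 - q₁ ^ 2 = 2 * g - t ^ 2)
    (hu₂ : 1 - q₂ ^ 2 = -(2 * g) - t ^ 2) :
    |(1 / q₁ + 1 / q₂) / 2 - 1 - (3 * g ^ 2 - t ^ 2) / 2| ≤ 45 * t ^ 4 := by
  have hT1 := inv_taylor4 hq₁
  have hT2 := inv_taylor4 hq₂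
  rw [hu₁] at hT1
  rw [hu₂] at hT2
  obtain ⟨hg1, hg2⟩ := abs_le.1 hga
  have ht2 : 0 ≤ t ^ 2 := by positivity
  have ht4 : 0 ≤ t ^ 4 := by positivity
  have htt : t ^ 2 ≤ 1 / 2 * t := by nlinarith
  have ht22 : t ^ 2 ≤ 1 / 4 := by nlinarith
  have ht6 : t ^ 6 ≤ 1 / 4 * t ^ 4 := by
    have : t ^ 6 = t ^ 4 * t ^ 2 := by ring
    rw [this, mul_comm (1 / 4 : ℝ)]
    exact mul_le_mul_of_nonneg_left ht22 ht4
  have ht6' : 0 ≤ t ^ 6 := by positivity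
  have hgg : g ^ 2 ≤ t ^ 2 := sq_le_sq' hg1 hg2
  have hgt : g ^ 2 * t ^ 2 ≤ t ^ 4 := by
    have : t ^ 4 = t ^ 2 * t ^ 2 := by ring
    rw [this]; exact mul_le_mul_of_nonneg_right hgg ht2
  have hgt0 : 0 ≤ g ^ 2 * t ^ 2 := by positivity
  have hu3 : |2 * g - t ^ 2| ^ 4 ≤ (5 / 2 * t) ^ 4 := by
    refine pow_le_pow_left₀ (abs_nonneg _) ?_ 4
    rw [abs_le]
    constructor <;> linarith
  have hu4 : |-(2 * g) - t ^ 2| ^ 4 ≤ (5 / 2 * t) ^ 4 := by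
    refine pow_le_pow_left₀ (abs_nonneg _) ?_ 4
    rw [abs_le]
    constructor <;> linarith
  have h5 : (5 / 2 * t) ^ 4 = 625 / 16 * t ^ 4 := by ring
  have e : (1 / q₁ + 1 / q₂) / 2 - 1 - (3 * g ^ 2 - t ^ 2) / 2
      = 1 / 2 * (1 / q₁ - 1 - (2 * g - t ^ 2) / 2 - 3 * (2 * g - t ^ 2) ^ 2 / 8
          - 5 * (2 * g - t ^ 2) ^ 3 / 16)
        + 1 / 2 * (1 / q₂ - 1 - (-(2 * g) - t ^ 2) / 2 - 3 * (-(2 * g) - t ^ 2) ^ 2 / 8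
          - 5 * (-(2 * g) - t ^ 2) ^ 3 / 16)
        + (3 / 8 * t ^ 4 - 5 / 16 * t ^ 6 - 15 / 4 * (g ^ 2 * t ^ 2)) := by ring
  rw [e]
  obtain ⟨a1, a2⟩ := abs_le.1 (hT1.trans hu3)
  obtain ⟨b1, b2⟩ := abs_le.1 (hT2.trans hu4)
  rw [abs_le]
  constructor <;> linarith

/-- **Fourth order symmetrised Taylor estimate** of the Coulomb kernel. -/
theorem kernel_taylor4 {z w : E} (h : 2 * ‖w‖ ≤ ‖z‖) (hz : z ≠ 0) :
    |(1 / ‖z - w‖ + 1 / ‖z + w‖) / 2 - 1 / ‖z‖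
      - (3 * ⟪z, w⟫ ^ 2 - ‖z‖ ^ 2 * ‖w‖ ^ 2) / (2 * ‖z‖ ^ 5)| ≤ 45 * ‖w‖ ^ 4 / ‖z‖ ^ 5 := by
  have hr : 0 < ‖z‖ := norm_pos_iff.2 hz
  have hs : 0 ≤ ‖w‖ := norm_nonneg _
  have hpa : |⟪z, w⟫| ≤ ‖z‖ * ‖w‖ := abs_real_inner_le_norm z w
  have hd : ‖z - w‖ ^ 2 = ‖z‖ ^ 2 - 2 * ⟪z, w⟫ + ‖w‖ ^ 2 := by
    rw [@norm_sub_sq_real]
  have hd' : ‖z + w‖ ^ 2 = ‖z‖ ^ 2 + 2 * ⟪z, w⟫ + ‖w‖ ^ 2 := by
    rw [@norm_add_sq_real]
  have hdl : ‖z‖ / 2 ≤ ‖z - w‖ := by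
    have := norm_sub_norm_le z w
    linarith
  have hdl' : ‖z‖ / 2 ≤ ‖z + w‖ := by
    have := norm_sub_norm_le z (-w)
    rw [norm_neg, sub_neg_eq_add] at this
    linarith
  generalize ‖z - w‖ = d at *
  generalize ‖z + w‖ = d' at *
  generalize ⟪z, w⟫ = p at *
  generalize ‖z‖ = r at *
  generalize ‖w‖ = s at *
  obtain ⟨q, hq⟩ : ∃ q, q = d / r := ⟨_, rfl⟩
  obtain ⟨q', hq'⟩ : ∃ q, q = d' / r := ⟨_, rfl⟩
  obtain ⟨t, ht⟩ : ∃ t, t = s / r := ⟨_, rfl⟩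
  obtain ⟨g, hg⟩ : ∃ g, g = p / r ^ 2 := ⟨_, rfl⟩
  have hz' : d = q * r := by rw [hq]; field_simp
  have hz'' : d' = q' * r := by rw [hq']; field_simp
  have hpg : p = g * r ^ 2 := by rw [hg]; field_simp
  have hst : s = t * r := by rw [ht]; field_simp
  have hq1 : 1 / 2 ≤ q := by
    rw [hq, le_div_iff₀ hr]; linarith
  have hq1' : 1 / 2 ≤ q' := by
    rw [hq', le_div_iff₀ hr]; linarith
  have ht0 : 0 ≤ t := by rw [ht]; positivity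
  have ht1 : t ≤ 1 / 2 := by rw [ht, div_le_iff₀ hr]; linarith
  have hga : |g| ≤ t := by
    rw [hg, abs_div, abs_of_pos (by positivity : (0:ℝ) < r ^ 2), ht,
      div_le_div_iff₀ (by positivity) hr]
    calc |p| * r ≤ (r * s) * r := mul_le_mul_of_nonneg_right hpa hr.le
      _ = s * r ^ 2 := by ring
  have hu : 1 - q ^ 2 = 2 * g - t ^ 2 := by
    rw [hz', hpg, hst] at hd
    have : r ^ 2 * (1 - q ^ 2) = r ^ 2 * (2 * g - t ^ 2) := by linarith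
    exact mul_left_cancel₀ (by positivity) this
  have hu' : 1 - q' ^ 2 = -(2 * g) - t ^ 2 := by
    rw [hz'', hpg, hst] at hd'
    have : r ^ 2 * (1 - q' ^ 2) = r ^ 2 * (-(2 * g) - t ^ 2) := by linarith
    exact mul_left_cancel₀ (by positivity) this
  have hfin := scalar_taylor4 hq1 hq1' ht0 ht1 hga hu hu'
  have hq0 : 0 < q := by linarith
  have hq0' : 0 < q' := by linarith
  have e : (1 / d + 1 / d') / 2 - 1 / r - (3 * p ^ 2 - r ^ 2 * s ^ 2) / (2 * r ^ 5)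
      = (1 / r) * ((1 / q + 1 / q') / 2 - 1 - (3 * g ^ 2 - t ^ 2) / 2) := by
    rw [hz', hz'', hpg, hst]
    field_simp
  rw [e, abs_mul, abs_of_pos (by positivity : (0:ℝ) < 1 / r)]
  calc 1 / r * _ ≤ 1 / r * (45 * t ^ 4) := mul_le_mul_of_nonneg_left hfin (by positivity)
    _ = 45 * s ^ 4 / r ^ 5 := by rw [hst]; field_simp

end Vale.Agent.P370.H696
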