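import Vale.Agent.P363.R.H10.Sym
import Vale.Agent.P370.H696.Taylor

/-! Cubic symmetry: the second order term of the multipole expansion of a weight with the symmetries
of the cube vanishes. -/

namespace Vale.Agent.P370.H696

open MeasureTheory
open scoped RealInnerProductSpace
open Vale.Agent.P363.Stmt (R3)
open Vale.Agent.P363.R.H10

noncomputable section

lemma inner_eq_sum (x y : R3) : ⟪x, y⟫ = x 0 * y 0 + x 1 * y 1 + x 2 * y 2 := by
  simp [PiLp.inner_apply, Fin.sum_univ_three]; ring

/-- a weight with the symmetries of the cube -/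
structure Cubic (h : R3 → ℝ) : Prop where
  perm : ∀ (σ : Equiv.Perm (Fin 3)) z, h (permI σ z) = h z
  refl : ∀ (k : Fin 3) z, h (reflI k z) = h z

lemma neg_eq_refl (z : R3) : -z = reflI 0 (reflI 1 (reflI 2 z)) := by
  ext i
  fin_cases i <;> simp [reflI_apply]

lemma Cubic.even {h : R3 → ℝ} (H : Cubic h) (z : R3) : h (-z) = h z := by
  rw [neg_eq_refl, H.refl, H.refl, H.refl]

lemma Cubic.cross {h : R3 → ℝ} (H : Cubic h) {i j : Fin 3} (hij : i ≠ j) :
    ∫ z, h z * (z i * z j) = 0 := by
  have e : ∫ z, h z * (z i * z j) = ∫ z, - (h z * (z i * z j)) := by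
    rw [← integral_isom (reflI i) (fun z => h z * (z i * z j))]
    congr 1; ext z
    rw [H.refl, reflI_apply, reflI_apply, if_pos rfl, if_neg (Ne.symm hij)]
    ring
  rw [integral_neg] at e
  linarith

lemma Cubic.diag {h : R3 → ℝ} (H : Cubic h) (i j : Fin 3) :
    ∫ z, h z * (z i * z i) = ∫ z, h z * (z j * z j) := by
  rw [← integral_isom (permI (Equiv.swap i j)) (fun z => h z * (z i * z i))]
  congr 1; ext z
  rw [H.perm]
  have : permI (Equiv.swap i j) z i = z j := by
    have := permI_apply (Equiv.swap i j) z j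
    rwa [Equiv.swap_apply_right] at this
  rw [this]

lemma Cubic.integrable {h : R3 → ℝ} (hi : Integrable fun z => h z * ‖z‖ ^ 2)
    (hm : AEStronglyMeasurable h volume) (i j : Fin 3) :
    Integrable fun z : R3 => h z * (z i * z j) := by
  refine Integrable.mono hi (hm.mul (by fun_prop)) (ae_of_all _ fun z => ?_)
  rw [norm_mul, norm_mul, norm_mul, norm_pow, norm_norm, pow_two]
  refine mul_le_mul_of_nonneg_left ?_ (norm_nonneg _)
  exact mul_le_mul (abs_coord_le z i) (abs_coord_le z j) (norm_nonneg _) (norm_nonneg _)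

/-- The second order term vanishes. -/
theorem Cubic.zero {h : R3 → ℝ} (H : Cubic h) (hi : Integrable fun z => h z * ‖z‖ ^ 2)
    (hm : AEStronglyMeasurable h volume) (x : R3) :
    ∫ z, h z * (3 * ⟪z, x⟫ ^ 2 - ‖z‖ ^ 2 * ‖x‖ ^ 2) = 0 := by
  have hI := Cubic.integrable hi hm
  have e : (fun z : R3 => h z * (3 * ⟪z, x⟫ ^ 2 - ‖z‖ ^ 2 * ‖x‖ ^ 2)) =
      fun z => (3 * x 0 ^ 2 - ‖x‖ ^ 2) * (h z * (z 0 * z 0))
        + (3 * x 1 ^ 2 - ‖x‖ ^ 2) * (h z * (z 1 * z 1))
        + (3 * x 2 ^ 2 - ‖x‖ ^ 2) * (h z * (z 2 * z 2))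
        + 6 * x 0 * x 1 * (h z * (z 0 * z 1)) + 6 * x 0 * x 2 * (h z * (z 0 * z 2))
        + 6 * x 1 * x 2 * (h z * (z 1 * z 2)) := by
    ext z
    rw [inner_eq_sum, norm_sq_eq_sum z, norm_sq_eq_sum x]
    ring
  rw [e]
  rw [integral_add, integral_add, integral_add, integral_add, integral_add,
    integral_const_mul, integral_const_mul, integral_const_mul, integral_const_mul,
    integral_const_mul, integral_const_mul, H.cross (i := 0) (j := 1) (by decide),
    H.cross (i := 0) (j := 2) (by decide), H.cross (i := 1) (j := 2) (by decide),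
    H.diag 1 0, H.diag 2 0]
  · rw [norm_sq_eq_sum x]; ring
  all_goals first
    | exact (hI _ _).const_mul _
    | skip
  · exact ((hI _ _).const_mul _).add ((hI _ _).const_mul _)
  · exact (((hI _ _).const_mul _).add ((hI _ _).const_mul _)).add ((hI _ _).const_mul _)
  · exact ((((hI _ _).const_mul _).add ((hI _ _).const_mul _)).add ((hI _ _).const_mul _)).add
      ((hI _ _).const_mul _)
  · exact (((((hI _ _).const_mul _).add ((hI _ _).const_mul _)).add ((hI _ _).const_mul _)).add
      ((hI _ _).const_mul _)).add ((hI _ _).const_mul _)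

end

end Vale.Agent.P370.H696
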