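import Vale.Agent.P370.H198.LatDefs
import Vale.Agent.P370.H696.Ball
import Vale.Agent.P370.H696.Sym

/-! Block CUBE: the potential of a homogeneously charged cube is quadratic up to fourth order. -/

namespace Vale.Agent.P370.H696

open MeasureTheory Set
open scoped RealInnerProductSpace Pointwise
open Vale.Agent.P363.Stmt (R3)
open Vale.Agent.P363.R.H10
open Vale.Agent.P370.H198

noncomputable section

lemma smul_cube {A : ℝ} (hA : 0 < A) : A • cube 1 = cube A := by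
  ext z
  rw [mem_smul_set_iff_inv_smul_mem₀ hA.ne']
  simp only [cube, mem_ofPred_eq, PiLp.smul_apply, smul_eq_mul, abs_mul, abs_inv, abs_of_pos hA]
  refine forall_congr' fun i => ?_
  rw [inv_mul_le_iff₀ hA, mul_one]

lemma VA_scale {A : ℝ} (hA : 0 < A) (x : R3) : VA A x = A ^ 2 * VA 1 (A⁻¹ • x) := by
  have h := Measure.setIntegral_comp_smul (volume : Measure R3) (fun z => 1 / ‖x - z‖) (cube 1)
    hA.ne'
  rw [smul_cube hA, finrank_R3, smul_eq_mul] at h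
  have e : ∀ z : R3, 1 / ‖x - A • z‖ = A⁻¹ * (1 / ‖A⁻¹ • x - z‖) := by
    intro z
    have : x - A • z = A • (A⁻¹ • x - z) := by
      rw [smul_sub, smul_inv_smul₀ hA.ne']
    rw [this, norm_smul, Real.norm_of_nonneg hA.le]
    field_simp
  simp only [e] at h
  rw [integral_const_mul] at h
  unfold VA
  have hA' : A ^ 3 ≠ 0 := by positivity
  rw [abs_of_pos (by positivity : 0 < (A ^ 3)⁻¹)] at h
  have h2 := congrArg (fun t => A ^ 3 * t) h
  rw [mul_inv_cancel_left₀ hA'] at h2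
  rw [← h2, ← mul_assoc]
  congr 1
  field_simp

lemma measurableSet_cube (A : ℝ) : MeasurableSet (cube A) := by
  have : cube A = ⋂ i, {z : R3 | |z i| ≤ A} := by ext z; simp [cube]
  rw [this]
  exact MeasurableSet.iInter fun i => measurableSet_le (by fun_prop) measurable_const

lemma norm_le_of_mem_cube {z : R3} (h : z ∈ cube 1) : ‖z‖ ≤ 2 := by
  have h2 : ‖z‖ ^ 2 ≤ 2 ^ 2 := by
    rw [norm_sq_eq_sum]
    have h0 := sq_le_one_iff_abs_le_one _ |>.2 (h 0)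
    have h1 := sq_le_one_iff_abs_le_one _ |>.2 (h 1)
    have h2 := sq_le_one_iff_abs_le_one _ |>.2 (h 2)
    linarith
  exact le_of_sq_le_sq h2 (by norm_num) |> fun h => h

/-- indicator of the unit cube -/
def ind (z : R3) : ℝ := (cube 1).indicator (fun _ => 1) z

lemma measurable_ind : Measurable ind := measurable_const.indicator (measurableSet_cube 1)

lemma integrable_ind : Integrable ind := by
  refine (integrable_indicator_iff (measurableSet_cube 1)).2 ?_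
  refine (integrableOn_const_iff ..).2 (Or.inr ?_)
  refine lt_of_le_of_lt (measure_mono (t := Metric.closedBall (0 : R3) 2) fun z hz => ?_)
    measure_closedBall_lt_top
  simpa using norm_le_of_mem_cube hz

lemma ind_nonneg (z : R3) : 0 ≤ ind z := indicator_nonneg (fun _ _ => zero_le_one) z

lemma ind_le_one (z : R3) : ind z ≤ 1 := by
  unfold ind; by_cases h : z ∈ cube 1 <;> simp [h]

/-- the weight cube minus smoothed ball -/
def Wt (z : R3) : ℝ := ind z - chi ‖z‖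

lemma mem_cube_of_norm {z : R3} (h : ‖z‖ ≤ 1) : z ∈ cube 1 := fun i => (abs_coord_le z i).trans h

lemma Wt_zero {z : R3} (h : ‖z‖ ≤ 1 / 2) : Wt z = 0 := by
  have : z ∈ cube 1 := mem_cube_of_norm (by linarith)
  simp [Wt, ind, this, chi_one h]

lemma measurable_Wt : Measurable Wt :=
  measurable_ind.sub (continuous_chi.measurable.comp measurable_norm)

lemma abs_Wt_le (z : R3) : |Wt z| ≤ ind z := by
  by_cases h : z ∈ cube 1
  · have h1 := chi_nonneg ‖z‖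
    have h2 := chi_le_one ‖z‖
    simp only [Wt, ind, indicator_of_mem h]
    rw [abs_le]; constructor <;> linarith
  · have h1 : 1 ≤ ‖z‖ := by
      by_contra hc
      exact h (mem_cube_of_norm (by linarith))
    simp [Wt, ind, indicator_of_notMem h, chi_zero h1]

lemma integrable_Wt : Integrable Wt :=
  integrable_ind.mono' measurable_Wt.aestronglyMeasurable (ae_of_all _ abs_Wt_le)

lemma cube_isom_perm (σ : Equiv.Perm (Fin 3)) (z : R3) : permI σ z ∈ cube 1 ↔ z ∈ cube 1 := by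
  simp only [cube, mem_ofPred_eq]
  constructor
  · intro h i
    have := h (σ i)
    rwa [permI_apply] at this
  · intro h i
    have := h (σ.symm i)
    rw [← permI_apply σ z, Equiv.apply_symm_apply] at this
    exact this

lemma cube_isom_refl (k : Fin 3) (z : R3) : reflI k z ∈ cube 1 ↔ z ∈ cube 1 := by
  simp only [cube, mem_ofPred_eq, reflI_apply]
  refine forall_congr' fun i => ?_
  split_ifs <;> simp

lemma cubic_Wt : Cubic Wt where
  perm σ z := by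
    unfold Wt ind
    rw [LinearIsometryEquiv.norm_map]
    congr 1
    by_cases h : z ∈ cube 1
    · rw [indicator_of_mem h, indicator_of_mem ((cube_isom_perm σ z).2 h)]
    · rw [indicator_of_notMem h, indicator_of_notMem (fun h' => h ((cube_isom_perm σ z).1 h'))]
  refl k z := by
    unfold Wt ind
    rw [LinearIsometryEquiv.norm_map]
    congr 1
    by_cases h : z ∈ cube 1
    · rw [indicator_of_mem h, indicator_of_mem ((cube_isom_refl k z).2 h)]
    · rw [indicator_of_notMem h, indicator_of_notMem (fun h' => h ((cube_isom_refl k z).1 h'))]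

lemma dens_of {q : R3 → ℝ} (hi : Integrable q) (hb : ∀ x, |q x| ≤ 1) :
    Dens q (1 + ∫ x, |q x|) where
  int := hi
  sup x := (hb x).trans (by
    have : 0 ≤ ∫ x, |q x| := integral_nonneg fun _ => abs_nonneg _
    linarith)
  l1 := by linarith

lemma Dens.int_div {q : R3 → ℝ} {N : ℝ} (h : Dens q N) (y : R3) :
    Integrable (fun x => q x / ‖y - x‖) := by
  have h1 := h.integrable (p := 1) zero_le_one (by norm_num) y
  have hm : AEStronglyMeasurable (fun x => q x / ‖y - x‖) volume := by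
    simp only [div_eq_mul_inv]
    exact h.int.aestronglyMeasurable.mul (by fun_prop)
  refine h1.mono hm (ae_of_all _ fun x => ?_)
  rw [norm_div, norm_norm, norm_mul, Real.norm_eq_abs |q x|, abs_abs, Real.rpow_neg_one,
    norm_inv, norm_norm, norm_sub_rev, div_eq_mul_inv, Real.norm_eq_abs]

lemma Dens.abs_int_div_le {q : R3 → ℝ} {N : ℝ} (h : Dens q N) (y : R3) :
    |∫ x, q x / ‖y - x‖| ≤ (2 * Real.pi + 1) * N := by
  calc |∫ x, q x / ‖y - x‖| ≤ ∫ x, |q x / ‖y - x‖| := by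
        simpa only [Real.norm_eq_abs] using
          norm_integral_le_integral_norm (μ := (volume : Measure R3)) (fun x => q x / ‖y - x‖)
    _ = ∫ x, |q x| * ‖x - y‖ ^ (-1 : ℝ) := by
        congr 1; ext x
        rw [abs_div, abs_norm, Real.rpow_neg_one, norm_sub_rev, div_eq_mul_inv]
    _ ≤ (4 * Real.pi / (3 - 1) + 1) * N := h.le zero_le_one (by norm_num) y
    _ = _ := by ring

lemma VA_one (x : R3) : VA 1 x = ∫ z, ind z / ‖x - z‖ := by
  unfold VA
  rw [← integral_indicator (measurableSet_cube 1)]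
  congr 1; ext z
  unfold ind
  by_cases h : z ∈ cube 1 <;> simp [h]

lemma dens_ind : Dens ind (1 + ∫ x, |ind x|) :=
  dens_of integrable_ind fun x => by
    rw [abs_of_nonneg (ind_nonneg x)]; exact ind_le_one x

lemma dens_Wt : Dens Wt (1 + ∫ x, |Wt x|) :=
  dens_of integrable_Wt fun x => (abs_Wt_le x).trans (ind_le_one x)

lemma integrable_chi : Integrable (fun z : R3 => chi ‖z‖) := by
  have := integrable_ind.sub integrable_Wt
  refine this.congr (ae_of_all _ fun z => ?_)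
  simp [Wt]

lemma dens_chi : Dens (fun z : R3 => chi ‖z‖) (1 + ∫ x : R3, |chi ‖x‖|) :=
  dens_of integrable_chi fun x => by
    rw [abs_of_nonneg (chi_nonneg _)]; exact chi_le_one _

lemma VA_split (x : R3) : VA 1 x = PB x + ∫ z, Wt z / ‖x - z‖ := by
  rw [VA_one, PB, ← integral_add (dens_chi.int_div x) (dens_Wt.int_div x)]
  congr 1; ext z
  unfold Wt; ring

lemma Wt_sym (x : R3) : ∫ z, Wt z / ‖x - z‖
    = ∫ z, Wt z * ((1 / ‖z - x‖ + 1 / ‖z + x‖) / 2) := by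
  have h1 : ∫ z, Wt z / ‖x - z‖ = ∫ z, Wt z / ‖z + x‖ := by
    rw [← integral_neg_eq_self]
    congr 1; ext z
    rw [cubic_Wt.even, sub_neg_eq_add, add_comm]
  have i1 := dens_Wt.int_div x
  have i2 : Integrable fun z => Wt z / ‖z + x‖ := by
    refine (dens_Wt.int_div (-x)).congr (ae_of_all _ fun z => ?_)
    simp only
    rw [← norm_neg, neg_sub, sub_neg_eq_add]
  have h2 : ∫ z, Wt z * ((1 / ‖z - x‖ + 1 / ‖z + x‖) / 2)
      = 1 / 2 * (∫ z, Wt z / ‖x - z‖) + 1 / 2 * (∫ z, Wt z / ‖z + x‖) := by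
    rw [← integral_const_mul, ← integral_const_mul, ← integral_add (i1.const_mul _)
      (i2.const_mul _)]
    congr 1; ext z
    rw [norm_sub_rev x z]; ring
  rw [h2, ← h1]; ring

/-- the second order weight -/
def Wh (z : R3) : ℝ := Wt z / (2 * ‖z‖ ^ 5)

lemma cubic_Wh : Cubic Wh where
  perm σ z := by unfold Wh; rw [cubic_Wt.perm, LinearIsometryEquiv.norm_map]
  refl k z := by unfold Wh; rw [cubic_Wt.refl, LinearIsometryEquiv.norm_map]

lemma measurable_Wh : Measurable Wh := by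
  unfold Wh; exact measurable_Wt.div (by fun_prop)

lemma half_lt_of_Wt {z : R3} (h : Wt z ≠ 0) : 1 / 2 < ‖z‖ := by
  by_contra hc
  exact h (Wt_zero (by linarith))

lemma integrable_Wh : Integrable fun z => Wh z * ‖z‖ ^ 2 := by
  refine (integrable_Wt.abs.const_mul 4).mono' ((measurable_Wh.mul
    (by fun_prop)).aestronglyMeasurable) (ae_of_all _ fun z => ?_)
  by_cases h : Wt z = 0
  · simp [Wh, h]
  · have h1 := half_lt_of_Wt h
    have h0 : 0 < ‖z‖ := by linarith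
    rw [Wh, Real.norm_eq_abs, abs_mul, abs_div, abs_of_pos (by positivity : 0 < 2 * ‖z‖ ^ 5),
      abs_of_pos (by positivity : 0 < ‖z‖ ^ 2), div_mul_eq_mul_div, div_le_iff₀ (by positivity)]
    have h3 : (1 / 2) ^ 3 ≤ ‖z‖ ^ 3 := pow_le_pow_left₀ (by norm_num) h1.le 3
    have h5 : ‖z‖ ^ 2 ≤ 4 * (2 * ‖z‖ ^ 5) := by
      have : ‖z‖ ^ 5 = ‖z‖ ^ 2 * ‖z‖ ^ 3 := by ring
      nlinarith [sq_nonneg ‖z‖]
    calc |Wt z| * ‖z‖ ^ 2 ≤ |Wt z| * (4 * (2 * ‖z‖ ^ 5)) :=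
          mul_le_mul_of_nonneg_left h5 (abs_nonneg _)
      _ = _ := by ring

lemma cube_near {x : R3} (hx : ‖x‖ ≤ 1 / 4) :
    |VA 1 x - VA 1 0 + 2 * Real.pi / 3 * ‖x‖ ^ 2| ≤ 1440 * (∫ z, |Wt z|) * ‖x‖ ^ 4 := by
  have i0 : Integrable fun z => Wt z / ‖z‖ := by
    refine (dens_Wt.int_div 0).congr (ae_of_all _ fun z => ?_)
    simp
  have i1 : Integrable fun z => Wt z * ((1 / ‖z - x‖ + 1 / ‖z + x‖) / 2) := by
    have a1 := dens_Wt.int_div x
    have a2 : Integrable fun z => Wt z / ‖z + x‖ := by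
      refine (dens_Wt.int_div (-x)).congr (ae_of_all _ fun z => ?_)
      simp only
      rw [← norm_neg, neg_sub, sub_neg_eq_add]
    refine ((a1.const_mul (1 / 2)).add (a2.const_mul (1 / 2))).congr (ae_of_all _ fun z => ?_)
    simp only [Pi.add_apply]
    rw [norm_sub_rev x z]; ring
  have i2 : Integrable fun z => Wh z * (3 * ⟪z, x⟫ ^ 2 - ‖z‖ ^ 2 * ‖x‖ ^ 2) := by
    refine (integrable_Wh.const_mul (4 * ‖x‖ ^ 2)).mono
      ((measurable_Wh.mul (by fun_prop)).aestronglyMeasurable) (ae_of_all _ fun z => ?_)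
    have hr : ‖4 * ‖x‖ ^ 2 * (Wh z * ‖z‖ ^ 2)‖ = ‖Wh z‖ * (4 * ‖x‖ ^ 2 * ‖z‖ ^ 2) := by
      rw [norm_mul (4 * ‖x‖ ^ 2), norm_mul (Wh z), Real.norm_of_nonneg
        (by positivity : 0 ≤ 4 * ‖x‖ ^ 2), Real.norm_of_nonneg (by positivity : 0 ≤ ‖z‖ ^ 2)]; ring
    rw [hr, norm_mul]
    refine mul_le_mul_of_nonneg_left ?_ (norm_nonneg _)
    have h1 : ⟪z, x⟫ ^ 2 ≤ ‖z‖ ^ 2 * ‖x‖ ^ 2 := by
      rw [← mul_pow]
      exact sq_le_sq' (neg_le_of_abs_le (abs_real_inner_le_norm z x))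
        ((le_abs_self _).trans (abs_real_inner_le_norm z x))
    have h2 : 0 ≤ ⟪z, x⟫ ^ 2 := sq_nonneg _
    rw [Real.norm_eq_abs, abs_le]
    constructor <;> nlinarith [mul_nonneg (sq_nonneg ‖z‖) (sq_nonneg ‖x‖)]
  have hzero := cubic_Wh.zero integrable_Wh measurable_Wh.aestronglyMeasurable x
  have e : VA 1 x - VA 1 0 + 2 * Real.pi / 3 * ‖x‖ ^ 2
      = ∫ z, (Wt z * ((1 / ‖z - x‖ + 1 / ‖z + x‖) / 2) - Wt z / ‖z‖
          - Wh z * (3 * ⟪z, x⟫ ^ 2 - ‖z‖ ^ 2 * ‖x‖ ^ 2)) := by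
    have i10 : Integrable fun z => Wt z * ((1 / ‖z - x‖ + 1 / ‖z + x‖) / 2) - Wt z / ‖z‖ :=
      i1.sub i0
    rw [integral_sub i10 i2, integral_sub i1 i0, hzero, VA_split x, VA_split 0,
      PB_eq (by linarith), Wt_sym x]
    have : ∫ z, Wt z / ‖(0 : R3) - z‖ = ∫ z, Wt z / ‖z‖ := by simp
    rw [this]; ring
  rw [e]
  have hb : ∀ z, |Wt z * ((1 / ‖z - x‖ + 1 / ‖z + x‖) / 2) - Wt z / ‖z‖
          - Wh z * (3 * ⟪z, x⟫ ^ 2 - ‖z‖ ^ 2 * ‖x‖ ^ 2)| ≤ |Wt z| * (1440 * ‖x‖ ^ 4) := by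
    intro z
    by_cases h : Wt z = 0
    · simp [Wh, h]
    · have h1 := half_lt_of_Wt h
      have h0 : 0 < ‖z‖ := by linarith
      have hz : z ≠ 0 := norm_pos_iff.1 h0
      have hT := kernel_taylor4 (z := z) (w := x) (by linarith) hz
      have e1 : Wt z * ((1 / ‖z - x‖ + 1 / ‖z + x‖) / 2) - Wt z / ‖z‖
          - Wh z * (3 * ⟪z, x⟫ ^ 2 - ‖z‖ ^ 2 * ‖x‖ ^ 2)
          = Wt z * ((1 / ‖z - x‖ + 1 / ‖z + x‖) / 2 - 1 / ‖z‖
            - (3 * ⟪z, x⟫ ^ 2 - ‖z‖ ^ 2 * ‖x‖ ^ 2) / (2 * ‖z‖ ^ 5)) := by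
        unfold Wh; ring
      rw [e1, abs_mul]
      refine mul_le_mul_of_nonneg_left (hT.trans ?_) (abs_nonneg _)
      rw [div_le_iff₀ (by positivity)]
      have h5 : (1 / 2) ^ 5 ≤ ‖z‖ ^ 5 := pow_le_pow_left₀ (by norm_num) h1.le 5
      have hx4 : 0 ≤ ‖x‖ ^ 4 := by positivity
      nlinarith
  calc |∫ z, (Wt z * ((1 / ‖z - x‖ + 1 / ‖z + x‖) / 2) - Wt z / ‖z‖
          - Wh z * (3 * ⟪z, x⟫ ^ 2 - ‖z‖ ^ 2 * ‖x‖ ^ 2))|
      ≤ ∫ z, |Wt z| * (1440 * ‖x‖ ^ 4) := by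
        rw [← Real.norm_eq_abs]
        exact norm_integral_le_of_norm_le (integrable_Wt.abs.mul_const _) (ae_of_all _ hb)
    _ = _ := by rw [integral_mul_const]; ring

lemma cube_one : ∃ C : ℝ, 0 < C ∧ ∀ x : R3,
    |VA 1 x - VA 1 0 + 2 * Real.pi / 3 * ‖x‖ ^ 2| ≤ C * ‖x‖ ^ 4 := by
  set I := ∫ z, |Wt z| with hI
  have hI0 : 0 ≤ I := integral_nonneg fun _ => abs_nonneg _
  set B := (2 * Real.pi + 1) * (1 + ∫ x, |ind x|) with hB
  have hJ0 : 0 ≤ ∫ x, |ind x| := integral_nonneg fun _ => abs_nonneg _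
  have hB0 : 0 ≤ B := by positivity
  refine ⟨1440 * I + 512 * B + 16 * (2 * Real.pi / 3), by positivity, fun x => ?_⟩
  rcases le_total ‖x‖ (1 / 4) with h | h
  · refine (cube_near h).trans ?_
    refine mul_le_mul_of_nonneg_right ?_ (by positivity)
    have : 0 ≤ 512 * B + 16 * (2 * Real.pi / 3) := by positivity
    linarith
  · have h1 : ∀ x, |VA 1 x| ≤ B := fun x => by
      rw [VA_one]; exact dens_ind.abs_int_div_le x
    have h2 : (1 / 4) ^ 2 ≤ ‖x‖ ^ 2 := pow_le_pow_left₀ (by norm_num) h 2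
    have h4 : (1 / 4) ^ 4 ≤ ‖x‖ ^ 4 := pow_le_pow_left₀ (by norm_num) h 4
    have h24 : ‖x‖ ^ 2 ≤ 16 * ‖x‖ ^ 4 := by
      have : ‖x‖ ^ 4 = ‖x‖ ^ 2 * ‖x‖ ^ 2 := by ring
      nlinarith [sq_nonneg ‖x‖]
    have a1 := h1 x
    have a2 := h1 0
    have a3 : |2 * Real.pi / 3 * ‖x‖ ^ 2| = 2 * Real.pi / 3 * ‖x‖ ^ 2 :=
      abs_of_nonneg (by positivity)
    have hsum : |VA 1 x - VA 1 0 + 2 * Real.pi / 3 * ‖x‖ ^ 2|
        ≤ 2 * B + 2 * Real.pi / 3 * ‖x‖ ^ 2 := by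
      calc |VA 1 x - VA 1 0 + 2 * Real.pi / 3 * ‖x‖ ^ 2|
          ≤ |VA 1 x - VA 1 0| + |2 * Real.pi / 3 * ‖x‖ ^ 2| := abs_add_le _ _
        _ ≤ (|VA 1 x| + |VA 1 0|) + |2 * Real.pi / 3 * ‖x‖ ^ 2| := by
            gcongr; exact abs_sub _ _
        _ ≤ _ := by rw [a3]; linarith
    refine hsum.trans ?_
    have hB4 : 2 * B ≤ 512 * B * ‖x‖ ^ 4 := by
      have : (1 : ℝ) ≤ 256 * ‖x‖ ^ 4 := by linarith
      nlinarith
    have hp : 2 * Real.pi / 3 * ‖x‖ ^ 2 ≤ 16 * (2 * Real.pi / 3) * ‖x‖ ^ 4 := by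
      have := mul_le_mul_of_nonneg_left h24 (by positivity : 0 ≤ 2 * Real.pi / 3)
      linarith
    have hI4 : 0 ≤ 1440 * I * ‖x‖ ^ 4 := by positivity
    linarith

/-- **Block CUBE** -/
theorem cubeStmt : CubeStmt := by
  obtain ⟨C, hC, h⟩ := cube_one
  refine ⟨C, hC, fun A hA x => ?_⟩
  have h1 := h (A⁻¹ • x)
  rw [VA_scale hA x, VA_scale hA 0, smul_zero]
  have e : A ^ 2 * VA 1 (A⁻¹ • x) - A ^ 2 * VA 1 0 + 2 * Real.pi / 3 * ‖x‖ ^ 2
      = A ^ 2 * (VA 1 (A⁻¹ • x) - VA 1 0 + 2 * Real.pi / 3 * ‖A⁻¹ • x‖ ^ 2) := by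
    rw [norm_smul, norm_inv, Real.norm_of_nonneg hA.le]
    field_simp
  rw [e, abs_mul, abs_of_pos (by positivity : 0 < A ^ 2)]
  calc A ^ 2 * _ ≤ A ^ 2 * (C * ‖A⁻¹ • x‖ ^ 4) := mul_le_mul_of_nonneg_left h1 (by positivity)
    _ = C * ‖x‖ ^ 4 / A ^ 2 := by
      rw [norm_smul, norm_inv, Real.norm_of_nonneg hA.le]
      field_simp

end

end Vale.Agent.P370.H696
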