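import Vale.Agent.P370.H696.Disp

/-! Block DISP: Riemann sum of the field, Fubini, and the final estimate. -/

namespace Vale.Agent.P370.H696

open MeasureTheory Set
open scoped RealInnerProductSpace
open Vale.Agent.P363.Stmt (R3)
open Vale.Agent.P363.R.H10
open Vale.Agent.P370.H198

noncomputable section

variable {q u : R3 → ℝ} {G : R3 → R3} {N U : ℝ}

lemma DispD.grad_le' (D : DispData u G U) (x : R3) : ‖G x‖ ≤ U * w5 x := by
  have := D.grad_le x
  unfold w5
  rwa [mul_one_div]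

lemma DispD.lip' (D : DispData u G U) {x y : R3} (h : ‖x - y‖ ≤ 2) :
    ‖G x - G y‖ ≤ U * w5 x * ‖x - y‖ := by
  have := D.lip x y h
  unfold w5
  rwa [mul_one_div]

lemma DispD.continuous (D : DispData u G U) : Continuous G := by
  refine LocallyLipschitz.continuous fun x => ?_
  refine ⟨Real.toNNReal U, Metric.ball x 1, Metric.ball_mem_nhds x one_pos, ?_⟩
  refine LipschitzOnWith.of_dist_le_mul fun a ha b hb => ?_
  rw [dist_eq_norm, dist_eq_norm, Real.coe_toNNReal _ D.nonneg]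
  have h1 : ‖a - b‖ ≤ 2 := by
    rw [← dist_eq_norm]
    rw [Metric.mem_ball] at ha hb
    have := dist_triangle_right a b x
    linarith
  refine (DispD.lip' D h1).trans ?_
  refine mul_le_mul_of_nonneg_right ?_ (norm_nonneg _)
  exact mul_le_of_le_one_right D.nonneg (w5_le_one a)

/-- the integrand -/
def ff (q : R3 → ℝ) (G : R3 → R3) (x y : R3) : ℝ := q x * ⟪KK (x - y), G y⟫

lemma ff_aesm (h : Dens q N) (hG : Continuous G) :
    AEStronglyMeasurable (Function.uncurry (ff q G))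
      ((volume : Measure R3).prod (volume : Measure R3)) := by
  have h1 : AEStronglyMeasurable (fun p : R3 × R3 => q p.1)
      ((volume : Measure R3).prod (volume : Measure R3)) := h.int.aestronglyMeasurable.comp_fst
  have h2 : Measurable fun p : R3 × R3 => ⟪KK (p.1 - p.2), G p.2⟫ := by
    simp only [inner_KK]
    have h3 : Continuous fun p : R3 × R3 => ⟪p.1 - p.2, G p.2⟫ := by fun_prop
    have h4 : Measurable fun p : R3 × R3 => 1 / ‖p.1 - p.2‖ ^ 3 := by fun_prop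
    exact h4.mul h3.measurable
  exact h1.mul h2.aestronglyMeasurable

lemma abs_ff_int_le (h : Dens q N) (y : R3) : ∫ x, |ff q G x y| ≤ cA * N * ‖G y‖ := by
  calc ∫ x, |ff q G x y| ≤ ∫ x, |q x| * (1 / ‖x - y‖) ^ 2 * ‖G y‖ :=
        integral_mono (h.fs_integrable y (G y)).abs ((h.two y).1.mul_const _)
          fun x => abs_term_le x y (G y)
    _ = (∫ x, |q x| * (1 / ‖x - y‖) ^ 2) * ‖G y‖ := integral_mul_const _ _
    _ ≤ _ := mul_le_mul_of_nonneg_right (h.two y).2 (norm_nonneg _)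

lemma ff_integrable (h : Dens q N) (D : DispData u G U) :
    Integrable (Function.uncurry (ff q G)) ((volume : Measure R3).prod (volume : Measure R3)) := by
  have hm := ff_aesm h (DispD.continuous D)
  rw [integrable_prod_iff' hm]
  refine ⟨ae_of_all _ fun y => h.fs_integrable y (G y), ?_⟩
  refine (integrable_w5.const_mul (cA * N * U)).mono' ?_ (ae_of_all _ fun y => ?_)
  · exact hm.norm.prod_swap.integral_prod_right'
  · rw [Real.norm_of_nonneg (integral_nonneg fun _ => norm_nonneg _)]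
    have h1 := abs_ff_int_le (G := G) h y
    have h2 := mul_le_mul_of_nonneg_left (DispD.grad_le' D y)
      (mul_nonneg cA_nonneg h.nonneg)
    calc ∫ x, ‖Function.uncurry (ff q G) (x, y)‖ = ∫ x, |ff q G x y| := rfl
      _ ≤ _ := h1.trans (h2.trans (le_of_eq (by ring)))

/-- the scalar field function -/
def HH (q : R3 → ℝ) (G : R3 → R3) (y : R3) : ℝ := fs q y (G y)

lemma HH_abs_le (h : Dens q N) (D : DispData u G U) (y : R3) :
    |HH q G y| ≤ cA * N * U * w5 y := by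
  have h2 := mul_le_mul_of_nonneg_left (DispD.grad_le' D y) (mul_nonneg cA_nonneg h.nonneg)
  exact (h.abs_fs_le y (G y)).trans (h2.trans (le_of_eq (by ring)))

lemma HH_integrable (h : Dens q N) (D : DispData u G U) : Integrable (HH q G) := by
  refine (integrable_w5.const_mul (cA * N * U)).mono' ?_ (ae_of_all _ fun y => HH_abs_le h D y)
  exact (ff_aesm h (DispD.continuous D)).prod_swap.integral_prod_right'

lemma HH_integral (h : Dens q N) (D : DispData u G U) :
    ∫ y, HH q G y = 4 * Real.pi * ∫ x, u x * q x := by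
  have e := integral_integral_swap (ff_integrable h D)
  have e1 : ∫ y, HH q G y = ∫ y, ∫ x, ff q G x y := rfl
  rw [e1, ← e, ← integral_const_mul]
  congr 1; ext x
  have e2 : ∫ y, ff q G x y = q x * ∫ y, ⟪G y, x - y⟫ / ‖x - y‖ ^ 3 := by
    rw [← integral_const_mul]
    congr 1; ext y
    rw [ff, inner_KK, real_inner_comm]; ring
  rw [e2, ← D.repr x]; ring

/-! ### Riemann sum -/

lemma HH_cell (h : Dens q N) (D : DispData u G U) {x y : R3} {t : ℝ} (ht : t ≤ 1)
    (hxy : ‖x - y‖ ≤ t) :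
    |HH q G x - HH q G y| ≤ (cA + 4 * cB) * N * U * Real.sqrt t * w5 y := by
  have hN := h.nonneg
  have hU := D.nonneg
  have ht0 : 0 ≤ t := (norm_nonneg _).trans hxy
  have e : HH q G x - HH q G y = (fs q x (G x) - fs q x (G y))
      + (fs q x (G y) - fs q y (G y)) := by unfold HH; ring
  have h1 : |fs q x (G x) - fs q x (G y)| ≤ cA * N * (U * w5 y * Real.sqrt t) := by
    rw [h.fs_sub]
    refine (h.abs_fs_le _ _).trans ?_
    refine mul_le_mul_of_nonneg_left ?_ (mul_nonneg cA_nonneg hN)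
    rw [norm_sub_rev]
    have hyx : ‖y - x‖ ≤ 2 := by rw [norm_sub_rev]; linarith
    refine (DispD.lip' D hyx).trans ?_
    refine mul_le_mul_of_nonneg_left ?_ (mul_nonneg hU (w5_nonneg y))
    rw [norm_sub_rev]
    refine hxy.trans ?_
    calc t = Real.sqrt t * Real.sqrt t := (Real.mul_self_sqrt ht0).symm
      _ ≤ 1 * Real.sqrt t := mul_le_mul_of_nonneg_right (Real.sqrt_le_one.2 ht)
          (Real.sqrt_nonneg _)
      _ = _ := one_mul _
  have h2 : |fs q x (G y) - fs q y (G y)| ≤ 4 * cB * N * Real.sqrt t * (U * w5 y) := by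
    refine (h.fs_holder x y (G y)).trans ?_
    have h3 : Real.sqrt ‖x - y‖ ≤ Real.sqrt t := Real.sqrt_le_sqrt hxy
    have h4 := DispD.grad_le' D y
    have h5 : 0 ≤ 4 * cB * N := mul_nonneg (mul_nonneg (by norm_num) cB_nonneg) hN
    exact mul_le_mul (mul_le_mul_of_nonneg_left h3 h5) h4 (norm_nonneg _)
      (mul_nonneg h5 (Real.sqrt_nonneg _))
  rw [e]
  refine (abs_add_le _ _).trans ?_
  calc _ ≤ cA * N * (U * w5 y * Real.sqrt t) + 4 * cB * N * Real.sqrt t * (U * w5 y) :=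
        add_le_add h1 h2
    _ = _ := by ring

lemma HH_riemann (h : Dens q N) (D : DispData u G U) {t : ℝ} (ht0 : 0 < t) (ht : t ≤ 1) (K : ℕ) :
    |∑ k ∈ box K, t ^ 3 * HH q G (pt t k) - ∫ y, HH q G y|
      ≤ (cA + 4 * cB) * N * U * Real.sqrt t * I4 + cA * N * U * (1 / (t * (K + 1 / 2))) * I4 := by
  have hN := h.nonneg
  have hU := D.nonneg
  have hHi := HH_integrable h D
  have hA : 0 < t * ((K : ℝ) + 1 / 2) := by positivity
  have e1 : ∑ k ∈ box K, t ^ 3 * HH q G (pt t k) - ∫ y, HH q G y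
      = ∑ k ∈ box K, (∫ y in cell t k, (HH q G (pt t k) - HH q G y))
        - ∫ y in (boxSet t K)ᶜ, HH q G y := by
    have e2 : ∀ k ∈ box K, ∫ y in cell t k, (HH q G (pt t k) - HH q G y)
        = t ^ 3 * HH q G (pt t k) - ∫ y in cell t k, HH q G y := by
      intro k _
      rw [integral_sub _ hHi.integrableOn, setIntegral_const, real_cell ht0, smul_eq_mul]
      refine (integrableOn_const_iff ..).2 (Or.inr ?_)
      rw [volume_cell ht0]; exact ENNReal.ofReal_lt_top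
    rw [Finset.sum_congr rfl e2, Finset.sum_sub_distrib, sum_cells K hHi,
      ← integral_add_compl (measurableSet_boxSet t K) hHi]
    ring
  have c1 : |∑ k ∈ box K, (∫ y in cell t k, (HH q G (pt t k) - HH q G y))|
      ≤ (cA + 4 * cB) * N * U * Real.sqrt t * I4 := by
    set c := (cA + 4 * cB) * N * U * Real.sqrt t with hc
    have hc0 : 0 ≤ c := by
      have := cA_nonneg
      have := cB_nonneg
      positivity
    calc |∑ k ∈ box K, (∫ y in cell t k, (HH q G (pt t k) - HH q G y))|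
        ≤ ∑ k ∈ box K, |∫ y in cell t k, (HH q G (pt t k) - HH q G y)| :=
          Finset.abs_sum_le_sum_abs _ _
      _ ≤ ∑ k ∈ box K, ∫ y in cell t k, c * w5 y := by
          refine Finset.sum_le_sum fun k _ => ?_
          rw [← Real.norm_eq_abs]
          refine norm_integral_le_of_norm_le (integrable_w5.const_mul c).integrableOn ?_
          filter_upwards [ae_restrict_mem (measurableSet_cell t k)] with y hy
          exact HH_cell h D ht (norm_sub_le_cell ht0 hy)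
      _ = ∫ y in boxSet t K, c * w5 y := sum_cells K (integrable_w5.const_mul c)
      _ = c * ∫ y in boxSet t K, w5 y := integral_const_mul _ _
      _ ≤ c * I4 := mul_le_mul_of_nonneg_left (setIntegral_w5_le _) hc0
  have c2 : |∫ y in (boxSet t K)ᶜ, HH q G y| ≤ cA * N * U * (1 / (t * (K + 1 / 2))) * I4 := by
    have hc0 : 0 ≤ cA * N * U := mul_nonneg (mul_nonneg cA_nonneg hN) hU
    have hi : Integrable fun y : R3 => cA * N * U * (1 / (t * ((K : ℝ) + 1 / 2))) *
        (1 / (1 + ‖y‖) ^ 4) := integrable_pow4.const_mul _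
    calc |∫ y in (boxSet t K)ᶜ, HH q G y|
        ≤ ∫ y in (boxSet t K)ᶜ, cA * N * U * (1 / (t * ((K : ℝ) + 1 / 2))) *
            (1 / (1 + ‖y‖) ^ 4) := by
          rw [← Real.norm_eq_abs]
          refine norm_integral_le_of_norm_le hi.integrableOn ?_
          filter_upwards [ae_restrict_mem (measurableSet_boxSet t K).compl] with y hy
          refine (HH_abs_le h D y).trans ?_
          rw [mul_assoc (cA * N * U)]
          exact mul_le_mul_of_nonneg_left (w5_tail hA (notMem_boxSet ht0 hy)) hc0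
      _ ≤ ∫ y : R3, cA * N * U * (1 / (t * ((K : ℝ) + 1 / 2))) * (1 / (1 + ‖y‖) ^ 4) :=
          setIntegral_le_integral hi (ae_of_all _ fun y => by positivity)
      _ = _ := integral_const_mul _ _
  rw [e1]
  exact (abs_sub _ _).trans (add_le_add c1 c2)

lemma card_box (K : ℕ) : (box K).card = (2 * K + 1) ^ 3 := by
  unfold box
  rw [Fintype.card_piFinset]
  simp only [Int.card_Icc, Finset.prod_const, Finset.card_univ, Fintype.card_fin]
  congr 1
  omega

/-- the ideal displacement -/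
def sid (t : ℕ) (G : R3 → R3) (k : Fin 3 → ℤ) : R3 :=
  (-(1 / (4 * Real.pi * (t : ℝ) ^ 3))) • G (pt (1 / (t : ℝ)) k)

lemma bound_round (h : Dens q N) {t : ℕ} (ht : 1 ≤ t) {s : (Fin 3 → ℤ) → R3}
    (hs : ∀ k ∈ box (t ^ 4), ‖s k + (1 / (4 * Real.pi * (t : ℝ) ^ 3)) • G (pt (1 / t) k)‖
      ≤ 1 / (t : ℝ) ^ 13) :
    |∑ k ∈ box (t ^ 4), (pot q (pt (1 / t) k + s k) - pot q (pt (1 / t) k + sid t G k))|
      ≤ 27 * cA * N * (1 / t) := by
  have hcA := cA_nonneg
  have hN := h.nonneg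
  have ht' : (1 : ℝ) ≤ t := by exact_mod_cast ht
  have ht0 : (0 : ℝ) < t := by linarith
  calc |∑ k ∈ box (t ^ 4), (pot q (pt (1 / t) k + s k) - pot q (pt (1 / t) k + sid t G k))|
      ≤ ∑ k ∈ box (t ^ 4), |pot q (pt (1 / t) k + s k) - pot q (pt (1 / t) k + sid t G k)| :=
        Finset.abs_sum_le_sum_abs _ _
    _ ≤ ∑ k ∈ box (t ^ 4), cA * N * (1 / (t : ℝ) ^ 13) := by
        refine Finset.sum_le_sum fun k hk => (h.pot_lip _ _).trans ?_
        refine mul_le_mul_of_nonneg_left ?_ (mul_nonneg hcA hN)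
        have := hs k hk
        rw [add_sub_add_left_eq_sub, sid, neg_smul, sub_neg_eq_add]
        exact this
    _ = (2 * (t : ℝ) ^ 4 + 1) ^ 3 * (cA * N * (1 / (t : ℝ) ^ 13)) := by
        rw [Finset.sum_const, card_box, nsmul_eq_mul]; push_cast; ring
    _ ≤ (3 * (t : ℝ) ^ 4) ^ 3 * (cA * N * (1 / (t : ℝ) ^ 13)) := by
        have : (1 : ℝ) ≤ (t : ℝ) ^ 4 := one_le_pow₀ ht'
        have h1 : 2 * (t : ℝ) ^ 4 + 1 ≤ 3 * (t : ℝ) ^ 4 := by linarith
        gcongr
    _ = 27 * cA * N * (1 / t) := by field_simp; ring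

lemma norm_sid (D : DispData u G U) {t : ℕ} (ht : 1 ≤ t) (k : Fin 3 → ℤ) :
    ‖sid t G k‖ ≤ (1 / (t : ℝ)) ^ 3 * (U * w5 (pt (1 / t) k)) := by
  have ht' : (1 : ℝ) ≤ t := by exact_mod_cast ht
  have ht0 : (0 : ℝ) < t := by linarith
  rw [sid, norm_smul, norm_neg, Real.norm_of_nonneg (by positivity)]
  have h1 : 1 / (4 * Real.pi * (t : ℝ) ^ 3) ≤ (1 / (t : ℝ)) ^ 3 := by
    rw [one_div_pow]
    apply one_div_le_one_div_of_le (by positivity)
    have : (1 : ℝ) ≤ 4 * Real.pi := by linarith [Real.pi_gt_three]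
    have h2 : 0 ≤ (t : ℝ) ^ 3 := by positivity
    nlinarith
  exact mul_le_mul h1 (DispD.grad_le' D _) (norm_nonneg _) (by positivity)

lemma sqrt_bound (hU : 0 ≤ U) : U * Real.sqrt U ≤ (1 + U) ^ 2 := by
  have h1 : Real.sqrt U ≤ 1 + U := by
    rw [Real.sqrt_le_left (by linarith)]
    nlinarith
  have h2 : U ≤ 1 + U := by linarith
  calc U * Real.sqrt U ≤ (1 + U) * (1 + U) := mul_le_mul h2 h1 (Real.sqrt_nonneg _) (by linarith)
    _ = _ := by ring

lemma sid_term (D : DispData u G U) {t : ℕ} (ht : 1 ≤ t) (k : Fin 3 → ℤ) :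
    ‖sid t G k‖ * Real.sqrt ‖sid t G k‖
      ≤ (1 + U) ^ 2 * Real.sqrt (1 / (t : ℝ)) * ((1 / (t : ℝ)) ^ 3 * w5 (pt (1 / t) k)) := by
  have hU := D.nonneg
  have ht' : (1 : ℝ) ≤ t := by exact_mod_cast ht
  have ht0 : (0 : ℝ) < t := by linarith
  have hn := norm_sid D ht k
  have hτ1 : 1 / (t : ℝ) ≤ 1 := by rw [div_le_one ht0]; exact ht'
  have hτ0 : 0 < 1 / (t : ℝ) := by positivity
  have hw0 := w5_nonneg (pt (1 / (t : ℝ)) k)
  have hw1 := w5_le_one (pt (1 / (t : ℝ)) k)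
  have hUU := sqrt_bound hU
  generalize ‖sid t G k‖ = σ at *
  generalize w5 (pt (1 / (t : ℝ)) k) = w at *
  generalize 1 / (t : ℝ) = τ at *
  have h1 : Real.sqrt σ ≤ Real.sqrt τ * Real.sqrt U := by
    have h2 : σ ≤ τ * U := by
      refine hn.trans ?_
      have h3 : τ ^ 3 ≤ τ := by
        calc τ ^ 3 ≤ τ ^ 1 := pow_le_pow_of_le_one hτ0.le hτ1 (by norm_num)
          _ = τ := pow_one τ
      have h4 : U * w ≤ U := mul_le_of_le_one_right hU hw1
      exact mul_le_mul h3 h4 (by positivity) hτ0.le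
    calc Real.sqrt σ ≤ Real.sqrt (τ * U) := Real.sqrt_le_sqrt h2
      _ = Real.sqrt τ * Real.sqrt U := by rw [Real.sqrt_mul hτ0.le]
  calc σ * Real.sqrt σ ≤ (τ ^ 3 * (U * w)) * (Real.sqrt τ * Real.sqrt U) :=
        mul_le_mul hn h1 (Real.sqrt_nonneg _) (by positivity)
    _ = (U * Real.sqrt U) * (Real.sqrt τ * (τ ^ 3 * w)) := by ring
    _ ≤ (1 + U) ^ 2 * (Real.sqrt τ * (τ ^ 3 * w)) :=
        mul_le_mul_of_nonneg_right hUU (by positivity)
    _ = _ := by ring

lemma bound_second (h : Dens q N) (D : DispData u G U) {t : ℕ} (ht : 1 ≤ t) :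
    |∑ k ∈ box (t ^ 4), (pot q (pt (1 / t) k + sid t G k) - pot q (pt (1 / t) k)
        - fs q (pt (1 / t) k) (sid t G k))|
      ≤ 128 * cB * I4 * (1 + U) ^ 2 * N * Real.sqrt (1 / (t : ℝ)) := by
  have hcB := cB_nonneg
  have hN := h.nonneg
  have hU := D.nonneg
  have ht' : (1 : ℝ) ≤ t := by exact_mod_cast ht
  have ht0 : (0 : ℝ) < t := by linarith
  have hτ1 : 1 / (t : ℝ) ≤ 1 := by rw [div_le_one ht0]; exact ht'
  have hτ0 : 0 < 1 / (t : ℝ) := by positivity
  have hr0 := Real.sqrt_nonneg (1 / (t : ℝ))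
  calc |∑ k ∈ box (t ^ 4), (pot q (pt (1 / t) k + sid t G k) - pot q (pt (1 / t) k)
        - fs q (pt (1 / t) k) (sid t G k))|
      ≤ ∑ k ∈ box (t ^ 4), |pot q (pt (1 / t) k + sid t G k) - pot q (pt (1 / t) k)
        - fs q (pt (1 / t) k) (sid t G k)| :=
        Finset.abs_sum_le_sum_abs _ _
    _ ≤ ∑ k ∈ box (t ^ 4), 4 * cB * N * ((1 + U) ^ 2 * Real.sqrt (1 / (t : ℝ)) *
          ((1 / (t : ℝ)) ^ 3 * w5 (pt (1 / t) k))) := by
        refine Finset.sum_le_sum fun k _ => (h.pot_first _ _).trans ?_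
        exact mul_le_mul_of_nonneg_left (sid_term D ht k) (by positivity)
    _ = 4 * cB * N * ((1 + U) ^ 2 * Real.sqrt (1 / (t : ℝ))) *
          ∑ k ∈ box (t ^ 4), (1 / (t : ℝ)) ^ 3 * w5 (pt (1 / t) k) := by
        rw [Finset.mul_sum]
        refine Finset.sum_congr rfl fun k _ => ?_
        ring
    _ ≤ 4 * cB * N * ((1 + U) ^ 2 * Real.sqrt (1 / (t : ℝ))) * (32 * I4) :=
        mul_le_mul_of_nonneg_left (sum_w5_le hτ0 hτ1 _) (by positivity)
    _ = _ := by ring

lemma bound_riemann (h : Dens q N) (D : DispData u G U) {t : ℕ} (ht : 1 ≤ t) :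
    |1 / (4 * Real.pi) * (∑ k ∈ box (t ^ 4), (1 / (t : ℝ)) ^ 3 * HH q G (pt (1 / t) k)
        - ∫ y, HH q G y)|
      ≤ ((cA + 4 * cB) * I4 + cA * I4) * (1 + U) ^ 2 * N * Real.sqrt (1 / (t : ℝ)) := by
  have hcA := cA_nonneg
  have hcB := cB_nonneg
  have hI4 := I4_nonneg
  have hN := h.nonneg
  have hU := D.nonneg
  have ht' : (1 : ℝ) ≤ t := by exact_mod_cast ht
  have ht0 : (0 : ℝ) < t := by linarith
  have hτ1 : 1 / (t : ℝ) ≤ 1 := by rw [div_le_one ht0]; exact ht'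
  have hτ0 : 0 < 1 / (t : ℝ) := by positivity
  have hr0 := Real.sqrt_nonneg (1 / (t : ℝ))
  have hr1 : Real.sqrt (1 / (t : ℝ)) ≤ 1 := Real.sqrt_le_one.2 hτ1
  have hrr := Real.mul_self_sqrt hτ0.le
  have h1 := HH_riemann h D hτ0 hτ1 (t ^ 4)
  have h2 : 1 / (1 / (t : ℝ) * (((t ^ 4 : ℕ) : ℝ) + 1 / 2)) ≤ Real.sqrt (1 / (t : ℝ)) := by
    have h3 : (t : ℝ) ≤ 1 / (t : ℝ) * (((t ^ 4 : ℕ) : ℝ) + 1 / 2) := by
      rw [one_div, inv_mul_eq_div, le_div_iff₀ ht0]
      push_cast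
      have h4 : (t : ℝ) ^ 2 ≤ (t : ℝ) ^ 4 := pow_le_pow_right₀ ht' (by norm_num)
      nlinarith
    calc 1 / (1 / (t : ℝ) * (((t ^ 4 : ℕ) : ℝ) + 1 / 2)) ≤ 1 / (t : ℝ) :=
          one_div_le_one_div_of_le ht0 h3
      _ = Real.sqrt (1 / (t : ℝ)) * Real.sqrt (1 / (t : ℝ)) := hrr.symm
      _ ≤ Real.sqrt (1 / (t : ℝ)) := mul_le_of_le_one_left hr0 hr1
  have h3 : |1 / (4 * Real.pi)| ≤ 1 := by
    rw [abs_of_nonneg (by positivity), div_le_one (by positivity)]
    linarith [Real.pi_gt_three]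
  have hU2 : U ≤ (1 + U) ^ 2 := by nlinarith
  rw [abs_mul]
  generalize |∑ k ∈ box (t ^ 4), (1 / (t : ℝ)) ^ 3 * HH q G (pt (1 / t) k) - ∫ y, HH q G y| = S
    at *
  have hS : 0 ≤ (cA + 4 * cB) * N * U * Real.sqrt (1 / (t : ℝ)) * I4
    + cA * N * U * (1 / (1 / (t : ℝ) * (((t ^ 4 : ℕ) : ℝ) + 1 / 2))) * I4 := by positivity
  generalize 1 / (1 / (t : ℝ) * (((t ^ 4 : ℕ) : ℝ) + 1 / 2)) = Q at *
  generalize Real.sqrt (1 / (t : ℝ)) = r at *
  calc |1 / (4 * Real.pi)| * S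
      ≤ 1 * ((cA + 4 * cB) * N * U * r * I4 + cA * N * U * Q * I4) := by
        refine (mul_le_mul_of_nonneg_left h1 (abs_nonneg _)).trans ?_
        exact mul_le_mul_of_nonneg_right h3 hS
    _ = (cA + 4 * cB) * N * U * r * I4 + cA * N * U * I4 * Q := by ring
    _ ≤ (cA + 4 * cB) * N * U * r * I4 + cA * N * U * I4 * r := by
        have := mul_le_mul_of_nonneg_left h2 (by positivity : 0 ≤ cA * N * U * I4)
        linarith
    _ = ((cA + 4 * cB) * I4 + cA * I4) * N * r * U := by ring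
    _ ≤ ((cA + 4 * cB) * I4 + cA * I4) * N * r * (1 + U) ^ 2 :=
        mul_le_mul_of_nonneg_left hU2 (by positivity)
    _ = _ := by ring

lemma split_sum (h : Dens q N) (D : DispData u G U) {t : ℕ} (ht : 1 ≤ t)
    (s : (Fin 3 → ℤ) → R3) :
    ∑ k ∈ box (t ^ 4), (pot q (pt (1 / t) k + s k) - pot q (pt (1 / t) k)) + ∫ x, u x * q x
      = ∑ k ∈ box (t ^ 4), (pot q (pt (1 / t) k + s k) - pot q (pt (1 / t) k + sid t G k))
        + ∑ k ∈ box (t ^ 4), (pot q (pt (1 / t) k + sid t G k) - pot q (pt (1 / t) k)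
            - fs q (pt (1 / t) k) (sid t G k))
        - 1 / (4 * Real.pi) * (∑ k ∈ box (t ^ 4), (1 / (t : ℝ)) ^ 3 * HH q G (pt (1 / t) k)
            - ∫ y, HH q G y) := by
  have ht' : (1 : ℝ) ≤ t := by exact_mod_cast ht
  have ht0 : (0 : ℝ) < t := by linarith
  have e1 : ∑ k ∈ box (t ^ 4), fs q (pt (1 / t) k) (sid t G k)
      = - (1 / (4 * Real.pi)) *
        ∑ k ∈ box (t ^ 4), (1 / (t : ℝ)) ^ 3 * HH q G (pt (1 / t) k) := by
    rw [Finset.mul_sum]
    refine Finset.sum_congr rfl fun k _ => ?_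
    rw [sid, fs_smul, HH]
    field_simp
  have e2 : ∫ x, u x * q x = 1 / (4 * Real.pi) * ∫ y, HH q G y := by
    rw [HH_integral h D]; field_simp
  have e3 : ∑ k ∈ box (t ^ 4), (pot q (pt (1 / t) k + s k) - pot q (pt (1 / t) k))
      = ∑ k ∈ box (t ^ 4), (pot q (pt (1 / t) k + s k) - pot q (pt (1 / t) k + sid t G k))
      + ∑ k ∈ box (t ^ 4), (pot q (pt (1 / t) k + sid t G k) - pot q (pt (1 / t) k)
            - fs q (pt (1 / t) k) (sid t G k))
      + ∑ k ∈ box (t ^ 4), fs q (pt (1 / t) k) (sid t G k) := by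
    rw [← Finset.sum_add_distrib, ← Finset.sum_add_distrib]
    refine Finset.sum_congr rfl fun k _ => ?_
    ring
  rw [e3, e1, e2]; ring

/-- **Block DISP** -/
theorem dispStmt : DispStmt := by
  have hcA := cA_nonneg
  have hcB := cB_nonneg
  have hI4 := I4_nonneg
  refine ⟨27 * cA + 128 * cB * I4 + ((cA + 4 * cB) * I4 + cA * I4) + 1, by positivity, ?_⟩
  intro t ht u G U D s hs q N hqi hqN hql
  have h : Dens q N := ⟨hqi, hqN, hql⟩
  have hN := h.nonneg
  have hU := D.nonneg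
  have ht' : (1 : ℝ) ≤ t := by exact_mod_cast ht
  have ht0 : (0 : ℝ) < t := by linarith
  have hτ1 : 1 / (t : ℝ) ≤ 1 := by rw [div_le_one ht0]; exact ht'
  have hτ0 : 0 < 1 / (t : ℝ) := by positivity
  have hr0 := Real.sqrt_nonneg (1 / (t : ℝ))
  have hr1 : Real.sqrt (1 / (t : ℝ)) ≤ 1 := Real.sqrt_le_one.2 hτ1
  have hrr := Real.mul_self_sqrt hτ0.le
  have hlast : ∀ C : ℝ, C * (1 + U) ^ 2 * N / Real.sqrt t
      = C * (1 + U) ^ 2 * N * Real.sqrt (1 / (t : ℝ)) := by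
    intro C
    rw [Real.sqrt_div zero_le_one, Real.sqrt_one]; ring
  rw [hlast, split_sum h D ht s]
  have b1 := bound_round h ht hs
  have b2 := bound_second h D ht
  have b3 := bound_riemann h D ht
  have hτr : 1 / (t : ℝ) ≤ Real.sqrt (1 / (t : ℝ)) := by
    calc 1 / (t : ℝ) = Real.sqrt (1 / (t : ℝ)) * Real.sqrt (1 / (t : ℝ)) := hrr.symm
      _ ≤ _ := mul_le_of_le_one_left hr0 hr1
  have hone : (1 : ℝ) ≤ (1 + U) ^ 2 := by nlinarith
  have b1' : 27 * cA * N * (1 / t) ≤ 27 * cA * (1 + U) ^ 2 * N * Real.sqrt (1 / (t : ℝ)) := by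
    calc 27 * cA * N * (1 / t) ≤ 27 * cA * N * Real.sqrt (1 / (t : ℝ)) :=
          mul_le_mul_of_nonneg_left hτr (by positivity)
      _ ≤ 27 * cA * N * Real.sqrt (1 / (t : ℝ)) * (1 + U) ^ 2 :=
          le_mul_of_one_le_right (by positivity) hone
      _ = _ := by ring
  refine (abs_sub _ _).trans ((add_le_add_left (abs_add_le _ _) _).trans ?_)
  refine (add_le_add (add_le_add (b1.trans b1') b2) b3).trans ?_
  have hpos : 0 ≤ (1 + U) ^ 2 * N * Real.sqrt (1 / (t : ℝ)) := by positivity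
  generalize Real.sqrt (1 / (t : ℝ)) = r at *
  calc _ = (27 * cA + 128 * cB * I4 + ((cA + 4 * cB) * I4 + cA * I4)) * ((1 + U) ^ 2 * N * r) := by
        ring
    _ ≤ (27 * cA + 128 * cB * I4 + ((cA + 4 * cB) * I4 + cA * I4) + 1) * ((1 + U) ^ 2 * N * r) :=
        mul_le_mul_of_nonneg_right (by linarith) hpos
    _ = _ := by ring

end

end Vale.Agent.P370.H696
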