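import Vale.Agent.P370.H198.LatDefs
import Vale.Agent.P363.R.H10.Sym
import Mathlib.MeasureTheory.Function.Floor

/-! Tiling of `ℝ³` by the cells of the lattice `h ℤ³`. -/

namespace Vale.Agent.P370.H696

open MeasureTheory Set
open Vale.Agent.P363.Stmt (R3)
open Vale.Agent.P363.R.H10
open Vale.Agent.P370.H198

noncomputable section

/-- index of the cell containing `x` -/
def idx (h : ℝ) (x : R3) : Fin 3 → ℤ := fun i => ⌊x i / h + 1 / 2⌋

/-- the half-open cell with centre `h k` -/
def cell (h : ℝ) (k : Fin 3 → ℤ) : Set R3 := idx h ⁻¹' {k}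

lemma mem_cell {h : ℝ} (hh : 0 < h) {k : Fin 3 → ℤ} {x : R3} :
    x ∈ cell h k ↔ ∀ i, h * k i - h / 2 ≤ x i ∧ x i < h * k i + h / 2 := by
  simp only [cell, mem_preimage, mem_singleton_iff, idx, funext_iff, Int.floor_eq_iff]
  refine forall_congr' fun i => ?_
  have e : x i = h * (x i / h) := by field_simp
  constructor
  · rintro ⟨h1, h2⟩
    rw [e]
    constructor <;> nlinarith
  · rintro ⟨h1, h2⟩
    rw [e] at h1 h2
    constructor
    · by_contra hc
      push Not at hc
      nlinarith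
    · by_contra hc
      push Not at hc
      nlinarith

lemma measurable_idx (h : ℝ) : Measurable (idx h) := by
  refine measurable_pi_lambda _ fun i => ?_
  exact Int.measurable_floor.comp (by fun_prop)

lemma measurableSet_cell (h : ℝ) (k : Fin 3 → ℤ) : MeasurableSet (cell h k) :=
  measurable_idx h (measurableSet_singleton k)

lemma disjoint_cell (h : ℝ) : Pairwise (Function.onFun Disjoint (cell h)) := by
  intro k l hkl
  rw [Function.onFun, Set.disjoint_left]
  intro x hx hy
  exact hkl (hx.symm.trans hy)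

lemma volume_cell {h : ℝ} (hh : 0 < h) (k : Fin 3 → ℤ) :
    (volume : Measure R3) (cell h k) = ENNReal.ofReal (h ^ 3) := by
  have e : cell h k = (@WithLp.ofLp 2 (Fin 3 → ℝ)) ⁻¹'
      (Set.pi univ fun i => Ico (h * k i - h / 2) (h * k i + h / 2)) := by
    ext x
    rw [mem_cell hh]
    simp
  rw [e, (PiLp.volume_preserving_ofLp (Fin 3)).measure_preimage
    (MeasurableSet.univ_pi fun i => measurableSet_Ico).nullMeasurableSet, Real.volume_pi_Ico]
  have : ∀ i : Fin 3, h * (k i : ℝ) + h / 2 - (h * (k i : ℝ) - h / 2) = h := fun i => by ring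
  simp only [this, Finset.prod_const, Finset.card_univ, Fintype.card_fin]
  rw [ENNReal.ofReal_pow hh.le]

lemma real_cell {h : ℝ} (hh : 0 < h) (k : Fin 3 → ℤ) :
    (volume : Measure R3).real (cell h k) = h ^ 3 := by
  rw [Measure.real, volume_cell hh, ENNReal.toReal_ofReal (by positivity)]

lemma pt_apply (h : ℝ) (k : Fin 3 → ℤ) (i : Fin 3) : pt h k i = h * k i := rfl

lemma norm_sub_le_cell {h : ℝ} (hh : 0 < h) {k : Fin 3 → ℤ} {x : R3} (hx : x ∈ cell h k) :
    ‖pt h k - x‖ ≤ h := by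
  rw [mem_cell hh] at hx
  have hi : ∀ i, (pt h k - x) i ^ 2 ≤ (h / 2) ^ 2 := fun i => by
    rw [PiLp.sub_apply, pt_apply]
    obtain ⟨h1, h2⟩ := hx i
    apply sq_le_sq'
    · linarith
    · linarith
  have h2 : ‖pt h k - x‖ ^ 2 ≤ h ^ 2 := by
    rw [norm_sq_eq_sum]
    have := hi 0
    have := hi 1
    have := hi 2
    nlinarith
  exact le_of_sq_le_sq h2 hh.le |> fun h => h

/-- union of the cells of the box -/
def boxSet (h : ℝ) (K : ℕ) : Set R3 := ⋃ k ∈ box K, cell h k

lemma mem_box {K : ℕ} {k : Fin 3 → ℤ} : k ∈ box K ↔ ∀ i, -(K : ℤ) ≤ k i ∧ k i ≤ K := by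
  simp [box, Fintype.mem_piFinset]

lemma measurableSet_boxSet (h : ℝ) (K : ℕ) : MeasurableSet (boxSet h K) :=
  Finset.measurableSet_biUnion _ fun k _ => measurableSet_cell h k

/-- sum over the cells of the box -/
lemma sum_cells {h : ℝ} (K : ℕ) {f : R3 → ℝ} (hf : Integrable f) :
    ∑ k ∈ box K, ∫ x in cell h k, f x = ∫ x in boxSet h K, f x := by
  rw [boxSet, integral_biUnion_finset _ (fun k _ => measurableSet_cell h k)
    (fun k _ l _ hkl => disjoint_cell h hkl) (fun k _ => hf.integrableOn)]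

lemma notMem_boxSet {h : ℝ} (hh : 0 < h) {K : ℕ} {x : R3} (hx : x ∉ boxSet h K) :
    h * (K + 1 / 2) ≤ ‖x‖ := by
  have h1 : idx h x ∉ box K := by
    intro hc
    apply hx
    simp only [boxSet, mem_iUnion]
    exact ⟨idx h x, hc, rfl⟩
  rw [mem_box] at h1
  push Not at h1
  obtain ⟨i, hi⟩ := h1
  have hm : x ∈ cell h (idx h x) := rfl
  rw [mem_cell hh] at hm
  obtain ⟨h2, h3⟩ := hm i
  have h4 := abs_coord_le x i
  by_cases hc : -(K : ℤ) ≤ idx h x i
  · have h5 : (K : ℤ) + 1 ≤ idx h x i := hi hc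
    have h6 : (K : ℝ) + 1 ≤ (idx h x i : ℝ) := by exact_mod_cast h5
    have := le_abs_self (x i)
    nlinarith
  · have h5 : idx h x i + 1 ≤ -(K : ℤ) := by omega
    have h6 : (idx h x i : ℝ) + 1 ≤ -(K : ℝ) := by exact_mod_cast h5
    have := neg_abs_le (x i)
    nlinarith

end

end Vale.Agent.P370.H696
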