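import Vale.Agent.P370.H696.Field
import Vale.Agent.P370.H696.Tile

/-! Block DISP: the effect of the displacements of the lattice. -/

namespace Vale.Agent.P370.H696

open MeasureTheory Set
open scoped RealInnerProductSpace
open Vale.Agent.P363.Stmt (R3)
open Vale.Agent.P363.R.H10
open Vale.Agent.P370.H198

noncomputable section

/-! ### the field as a linear form -/

/-- the field of `q` at `y`, applied to `g` -/
def fs (q : R3 → ℝ) (y g : R3) : ℝ := ∫ x, q x * ⟪KK (x - y), g⟫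

lemma ae_ne (y : R3) : ∀ᵐ x : R3, x ≠ y := by rw [ae_iff]; simp

lemma rpow_neg_two {r : ℝ} (hr : 0 ≤ r) : r ^ (-2 : ℝ) = (1 / r) ^ 2 := by
  rw [Real.rpow_neg hr, one_div, inv_pow, Real.rpow_two]

lemma measurable_KK : Measurable KK := by
  unfold KK; fun_prop

/-- constants -/
def cA : ℝ := 4 * Real.pi + 1
def cB : ℝ := 8 * Real.pi + 1

lemma cA_nonneg : 0 ≤ cA := by unfold cA; positivity
lemma cB_nonneg : 0 ≤ cB := by unfold cB; positivity

variable {q : R3 → ℝ} {N : ℝ}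

lemma Dens.two (h : Dens q N) (y : R3) :
    Integrable (fun x => |q x| * (1 / ‖x - y‖) ^ 2) ∧
      ∫ x, |q x| * (1 / ‖x - y‖) ^ 2 ≤ cA * N := by
  have h1 := h.integrable (p := 2) (by norm_num) (by norm_num) y
  have h2 := h.le (p := 2) (by norm_num) (by norm_num) y
  have e : ∀ x, ‖x - y‖ ^ (-2 : ℝ) = (1 / ‖x - y‖) ^ 2 := fun x => rpow_neg_two (norm_nonneg _)
  simp only [e] at h1 h2
  refine ⟨h1, h2.trans (le_of_eq ?_)⟩
  unfold cA; ring

lemma Dens.fiveHalf (h : Dens q N) (y : R3) :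
    Integrable (fun x => |q x| * hp ‖x - y‖) ∧ ∫ x, |q x| * hp ‖x - y‖ ≤ cB * N := by
  have h1 := h.integrable (p := 5 / 2) (by norm_num) (by norm_num) y
  have h2 := h.le (p := 5 / 2) (by norm_num) (by norm_num) y
  refine ⟨h1, h2.trans (le_of_eq ?_)⟩
  unfold cB; ring

lemma abs_term_le (x y g : R3) :
    |q x * ⟪KK (x - y), g⟫| ≤ |q x| * (1 / ‖x - y‖) ^ 2 * ‖g‖ := by
  rw [abs_mul, mul_assoc]
  refine mul_le_mul_of_nonneg_left ?_ (abs_nonneg _)
  rcases eq_or_ne (x - y) 0 with h | h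
  · rw [h]; simp [KK]
  · rw [← norm_KK h]; exact abs_real_inner_le_norm _ _

lemma inner_KK (z g : R3) : ⟪KK z, g⟫ = 1 / ‖z‖ ^ 3 * ⟪z, g⟫ := by
  unfold KK; rw [real_inner_smul_left]

lemma measurable_inner_KK (y g : R3) : Measurable fun x : R3 => ⟪KK (x - y), g⟫ := by
  simp only [inner_KK]
  have h1 : Continuous fun x : R3 => ⟪x - y, g⟫ := by fun_prop
  have h2 : Measurable fun x : R3 => 1 / ‖x - y‖ ^ 3 := by fun_prop
  exact h2.mul h1.measurable

lemma Dens.fs_integrable (h : Dens q N) (y g : R3) :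
    Integrable (fun x => q x * ⟪KK (x - y), g⟫) := by
  refine ((h.two y).1.mul_const ‖g‖).mono' ?_ (ae_of_all _ fun x => abs_term_le x y g)
  refine h.int.aestronglyMeasurable.mul ?_
  exact (measurable_inner_KK y g).aestronglyMeasurable

lemma Dens.abs_fs_le (h : Dens q N) (y g : R3) : |fs q y g| ≤ cA * N * ‖g‖ := by
  calc |fs q y g| ≤ ∫ x, |q x| * (1 / ‖x - y‖) ^ 2 * ‖g‖ := by
        rw [← Real.norm_eq_abs]
        exact norm_integral_le_of_norm_le ((h.two y).1.mul_const ‖g‖)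
          (ae_of_all _ fun x => abs_term_le x y g)
    _ = (∫ x, |q x| * (1 / ‖x - y‖) ^ 2) * ‖g‖ := integral_mul_const _ _
    _ ≤ _ := mul_le_mul_of_nonneg_right (h.two y).2 (norm_nonneg _)

lemma Dens.fs_sub (h : Dens q N) (y g g' : R3) : fs q y g - fs q y g' = fs q y (g - g') := by
  unfold fs
  rw [← integral_sub (h.fs_integrable y g) (h.fs_integrable y g')]
  congr 1; ext x
  rw [inner_sub_right]; ring

lemma fs_smul (c : ℝ) (y g : R3) : fs q y (c • g) = c * fs q y g := by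
  unfold fs
  rw [← integral_const_mul]
  congr 1; ext x
  rw [real_inner_smul_right]; ring

lemma Dens.fs_holder (h : Dens q N) (y y' g : R3) :
    |fs q y g - fs q y' g| ≤ 4 * cB * N * Real.sqrt ‖y - y'‖ * ‖g‖ := by
  have e : fs q y g - fs q y' g = ∫ x, (q x * ⟪KK (x - y), g⟫ - q x * ⟪KK (x - y'), g⟫) := by
    unfold fs
    rw [integral_sub (h.fs_integrable y g) (h.fs_integrable y' g)]
  set c := 2 * Real.sqrt ‖y - y'‖ * ‖g‖ with hc
  have hi : Integrable fun x => c * (|q x| * hp ‖x - y‖) + c * (|q x| * hp ‖x - y'‖) :=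
    ((h.fiveHalf y).1.const_mul c).add ((h.fiveHalf y').1.const_mul c)
  rw [e]
  calc |∫ x, (q x * ⟪KK (x - y), g⟫ - q x * ⟪KK (x - y'), g⟫)|
      ≤ ∫ x, (c * (|q x| * hp ‖x - y‖) + c * (|q x| * hp ‖x - y'‖)) := by
        rw [← Real.norm_eq_abs]
        refine norm_integral_le_of_norm_le hi ?_
        filter_upwards [ae_ne y, ae_ne y'] with x hx hx'
        rw [← mul_sub, ← inner_sub_left, norm_mul, Real.norm_eq_abs]
        have h1 : ‖⟪KK (x - y) - KK (x - y'), g⟫‖
            ≤ (2 * Real.sqrt ‖y - y'‖ * (hp ‖x - y‖ + hp ‖x - y'‖)) * ‖g‖ := by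
          refine (abs_real_inner_le_norm _ _).trans ?_
          refine mul_le_mul_of_nonneg_right ?_ (norm_nonneg _)
          have := KK_holder (sub_ne_zero.2 hx) (sub_ne_zero.2 hx')
          rwa [show x - y - (x - y') = y' - y by abel, norm_sub_rev y' y] at this
        calc |q x| * ‖⟪KK (x - y) - KK (x - y'), g⟫‖
            ≤ |q x| * ((2 * Real.sqrt ‖y - y'‖ * (hp ‖x - y‖ + hp ‖x - y'‖)) * ‖g‖) :=
              mul_le_mul_of_nonneg_left h1 (abs_nonneg _)
          _ = _ := by rw [hc]; ring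
    _ = c * (∫ x, |q x| * hp ‖x - y‖) + c * (∫ x, |q x| * hp ‖x - y'‖) := by
        rw [integral_add ((h.fiveHalf y).1.const_mul c) ((h.fiveHalf y').1.const_mul c),
          integral_const_mul, integral_const_mul]
    _ ≤ c * (cB * N) + c * (cB * N) := by
        have hc0 : 0 ≤ c := by positivity
        exact add_le_add (mul_le_mul_of_nonneg_left (h.fiveHalf y).2 hc0)
          (mul_le_mul_of_nonneg_left (h.fiveHalf y').2 hc0)
    _ = _ := by rw [hc]; ring

/-! ### the potential -/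

lemma Dens.pot_integrable (h : Dens q N) (y : R3) : Integrable (fun x => q x / ‖x - y‖) := by
  refine (h.int_div y).congr (ae_of_all _ fun x => ?_)
  simp only
  rw [norm_sub_rev]

lemma Dens.pot_lip (h : Dens q N) (y y' : R3) : |pot q y - pot q y'| ≤ cA * N * ‖y - y'‖ := by
  have e : pot q y - pot q y' = ∫ x, (q x / ‖x - y‖ - q x / ‖x - y'‖) := by
    unfold pot
    rw [integral_sub (h.pot_integrable y) (h.pot_integrable y')]
  set c := ‖y - y'‖ / 2 with hc
  have hi : Integrable fun x => c * (|q x| * (1 / ‖x - y‖) ^ 2) + c * (|q x| * (1 / ‖x - y'‖) ^ 2) :=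
    ((h.two y).1.const_mul c).add ((h.two y').1.const_mul c)
  rw [e]
  calc |∫ x, (q x / ‖x - y‖ - q x / ‖x - y'‖)|
      ≤ ∫ x, (c * (|q x| * (1 / ‖x - y‖) ^ 2) + c * (|q x| * (1 / ‖x - y'‖) ^ 2)) := by
        rw [← Real.norm_eq_abs]
        refine norm_integral_le_of_norm_le hi ?_
        filter_upwards [ae_ne y, ae_ne y'] with x hx hx'
        have e1 : q x / ‖x - y‖ - q x / ‖x - y'‖ = q x * (1 / ‖x - y‖ - 1 / ‖x - y'‖) := by ring
        rw [e1, norm_mul, Real.norm_eq_abs, Real.norm_eq_abs]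
        have h1 := inv_sub_le (sub_ne_zero.2 hx) (sub_ne_zero.2 hx')
        rw [show x - y - (x - y') = y' - y by abel, norm_sub_rev y' y] at h1
        have h2 : ‖y - y'‖ * (1 / ‖x - y‖) * (1 / ‖x - y'‖)
            ≤ c * (1 / ‖x - y‖) ^ 2 + c * (1 / ‖x - y'‖) ^ 2 := by
          have : 0 ≤ ‖y - y'‖ := norm_nonneg _
          have h3 := sq_nonneg (1 / ‖x - y‖ - 1 / ‖x - y'‖)
          rw [hc]
          nlinarith [mul_nonneg this h3]
        calc |q x| * |1 / ‖x - y‖ - 1 / ‖x - y'‖|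
            ≤ |q x| * (c * (1 / ‖x - y‖) ^ 2 + c * (1 / ‖x - y'‖) ^ 2) :=
              mul_le_mul_of_nonneg_left (h1.trans h2) (abs_nonneg _)
          _ = _ := by ring
    _ = c * (∫ x, |q x| * (1 / ‖x - y‖) ^ 2) + c * (∫ x, |q x| * (1 / ‖x - y'‖) ^ 2) := by
        rw [integral_add ((h.two y).1.const_mul c) ((h.two y').1.const_mul c),
          integral_const_mul, integral_const_mul]
    _ ≤ c * (cA * N) + c * (cA * N) := by
        have hc0 : 0 ≤ c := by positivity
        exact add_le_add (mul_le_mul_of_nonneg_left (h.two y).2 hc0)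
          (mul_le_mul_of_nonneg_left (h.two y').2 hc0)
    _ = _ := by rw [hc]; ring

lemma Dens.pot_first (h : Dens q N) (y s : R3) :
    |pot q (y + s) - pot q y - fs q y s| ≤ 4 * cB * N * (‖s‖ * Real.sqrt ‖s‖) := by
  have e : pot q (y + s) - pot q y - fs q y s
      = ∫ x, (q x / ‖x - (y + s)‖ - q x / ‖x - y‖ - q x * ⟪KK (x - y), s⟫) := by
    have i1 : Integrable fun x => q x / ‖x - (y + s)‖ - q x / ‖x - y‖ :=
      (h.pot_integrable (y + s)).sub (h.pot_integrable y)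
    unfold pot fs
    rw [integral_sub i1 (h.fs_integrable y s),
      integral_sub (h.pot_integrable (y + s)) (h.pot_integrable y)]
  set c := 2 * (‖s‖ * Real.sqrt ‖s‖) with hc
  have hi : Integrable fun x => c * (|q x| * hp ‖x - y‖) + c * (|q x| * hp ‖x - (y + s)‖) :=
    ((h.fiveHalf y).1.const_mul c).add ((h.fiveHalf (y + s)).1.const_mul c)
  rw [e]
  calc |∫ x, (q x / ‖x - (y + s)‖ - q x / ‖x - y‖ - q x * ⟪KK (x - y), s⟫)|
      ≤ ∫ x, (c * (|q x| * hp ‖x - y‖) + c * (|q x| * hp ‖x - (y + s)‖)) := by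
        rw [← Real.norm_eq_abs]
        refine norm_integral_le_of_norm_le hi ?_
        filter_upwards [ae_ne y, ae_ne (y + s)] with x hx hx'
        have e1 : q x / ‖x - (y + s)‖ - q x / ‖x - y‖ - q x * ⟪KK (x - y), s⟫
            = q x * (1 / ‖x - y - s‖ - 1 / ‖x - y‖ - ⟪KK (x - y), s⟫) := by
          rw [sub_sub x y s]; ring
        rw [e1, norm_mul, Real.norm_eq_abs, Real.norm_eq_abs]
        have hx2 : x - y - s ≠ 0 := by rw [sub_sub]; exact sub_ne_zero.2 hx'
        have h1 := kernel_first (sub_ne_zero.2 hx) hx2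
        calc |q x| * |1 / ‖x - y - s‖ - 1 / ‖x - y‖ - ⟪KK (x - y), s⟫|
            ≤ |q x| * (2 * (‖s‖ * Real.sqrt ‖s‖) * (hp ‖x - y‖ + hp ‖x - y - s‖)) :=
              mul_le_mul_of_nonneg_left h1 (abs_nonneg _)
          _ = _ := by rw [hc, sub_sub x y s]; ring
    _ = c * (∫ x, |q x| * hp ‖x - y‖) + c * (∫ x, |q x| * hp ‖x - (y + s)‖) := by
        rw [integral_add ((h.fiveHalf y).1.const_mul c) ((h.fiveHalf (y + s)).1.const_mul c),
          integral_const_mul, integral_const_mul]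
    _ ≤ c * (cB * N) + c * (cB * N) := by
        have hc0 : 0 ≤ c := by positivity
        exact add_le_add (mul_le_mul_of_nonneg_left (h.fiveHalf y).2 hc0)
          (mul_le_mul_of_nonneg_left (h.fiveHalf (y + s)).2 hc0)
    _ = _ := by rw [hc]; ring

/-! ### the weight -/

/-- the weight `(1 + ‖x‖)⁻⁵` -/
def w5 (x : R3) : ℝ := 1 / (1 + ‖x‖) ^ 5

lemma w5_nonneg (x : R3) : 0 ≤ w5 x := by unfold w5; positivity

lemma w5_le_one (x : R3) : w5 x ≤ 1 := by
  unfold w5
  rw [div_le_one (by positivity)]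
  exact one_le_pow₀ (by linarith [norm_nonneg x])

/-- `∫ (1 + ‖x‖)⁻⁴` -/
def I4 : ℝ := ∫ x : R3, 1 / (1 + ‖x‖) ^ 4

lemma I4_nonneg : 0 ≤ I4 := integral_nonneg fun x => by positivity

lemma w5_le (x : R3) : w5 x ≤ 1 / (1 + ‖x‖) ^ 4 := by
  unfold w5
  apply one_div_le_one_div_of_le (by positivity)
  exact pow_le_pow_right₀ (by linarith [norm_nonneg x]) (by norm_num)

lemma continuous_w5 : Continuous w5 := by
  unfold w5
  exact continuous_const.div (by fun_prop) fun x => by positivity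

lemma integrable_w5 : Integrable w5 := by
  refine integrable_pow4.mono' continuous_w5.aestronglyMeasurable (ae_of_all _ fun x => ?_)
  rw [Real.norm_of_nonneg (w5_nonneg x)]
  exact w5_le x

lemma integral_w5_le : ∫ x, w5 x ≤ I4 := integral_mono integrable_w5 integrable_pow4 w5_le

lemma setIntegral_w5_le (s : Set R3) : ∫ x in s, w5 x ≤ I4 :=
  (setIntegral_le_integral integrable_w5 (ae_of_all _ w5_nonneg)).trans integral_w5_le

lemma w5_cmp {x y : R3} (h : ‖x - y‖ ≤ 1) : w5 x ≤ 32 * w5 y := by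
  unfold w5
  rw [mul_one_div, div_le_div_iff₀ (by positivity) (by positivity)]
  have h1 : 1 + ‖y‖ ≤ 2 * (1 + ‖x‖) := by
    have : ‖y‖ ≤ ‖x‖ + ‖x - y‖ := by
      have := norm_sub_norm_le y x
      rw [norm_sub_rev] at this; linarith
    linarith [norm_nonneg x]
  calc 1 * (1 + ‖y‖) ^ 5 ≤ (2 * (1 + ‖x‖)) ^ 5 := by
        rw [one_mul]; exact pow_le_pow_left₀ (by positivity) h1 5
    _ = _ := by ring

lemma w5_tail {A : ℝ} (hA : 0 < A) {x : R3} (hx : A ≤ ‖x‖) :
    w5 x ≤ 1 / A * (1 / (1 + ‖x‖) ^ 4) := by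
  unfold w5
  rw [one_div_mul_one_div]
  apply one_div_le_one_div_of_le (by positivity)
  have : (1 + ‖x‖) ^ 5 = (1 + ‖x‖) * (1 + ‖x‖) ^ 4 := by ring
  rw [this]
  exact mul_le_mul_of_nonneg_right (by linarith) (by positivity)

lemma sum_w5_le {h : ℝ} (hh : 0 < h) (hh1 : h ≤ 1) (K : ℕ) :
    ∑ k ∈ box K, h ^ 3 * w5 (pt h k) ≤ 32 * I4 := by
  have h1 : ∀ k ∈ box K, h ^ 3 * w5 (pt h k) ≤ ∫ x in cell h k, 32 * w5 x := by
    intro k _
    have e : h ^ 3 * w5 (pt h k) = ∫ x in cell h k, w5 (pt h k) := by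
      rw [setIntegral_const, real_cell hh, smul_eq_mul]
    rw [e]
    refine setIntegral_mono_on ?_ (integrable_w5.const_mul 32).integrableOn
      (measurableSet_cell h k) fun x hx => w5_cmp ((norm_sub_le_cell hh hx).trans hh1)
    refine (integrableOn_const_iff ..).2 (Or.inr ?_)
    rw [volume_cell hh]; exact ENNReal.ofReal_lt_top
  calc ∑ k ∈ box K, h ^ 3 * w5 (pt h k) ≤ ∑ k ∈ box K, ∫ x in cell h k, 32 * w5 x :=
        Finset.sum_le_sum h1
    _ = ∫ x in boxSet h K, 32 * w5 x := sum_cells K (integrable_w5.const_mul 32)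
    _ = 32 * ∫ x in boxSet h K, w5 x := integral_const_mul _ _
    _ ≤ _ := mul_le_mul_of_nonneg_left (setIntegral_w5_le _) (by norm_num)

end

end Vale.Agent.P370.H696
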