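import Vale.Agent.P370.H696.Cube

/-! The field of a bounded integrable density: bounded, Hölder continuous with exponent `1/2`. -/

namespace Vale.Agent.P370.H696

open MeasureTheory Set
open scoped RealInnerProductSpace
open Vale.Agent.P363.Stmt (R3)
open Vale.Agent.P363.R.H10
open Vale.Agent.P370.H198

noncomputable section

/-- `r ^ (-5/2)` -/
def hp (r : ℝ) : ℝ := r ^ (-(5 / 2) : ℝ)

lemma hp_nonneg {r : ℝ} (hr : 0 ≤ r) : 0 ≤ hp r := Real.rpow_nonneg hr _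

lemma hp_sq {r : ℝ} (hr : 0 < r) : hp r ^ 2 = (1 / r) ^ 5 := by
  unfold hp
  rw [← Real.rpow_natCast (r ^ _) 2, ← Real.rpow_mul hr.le, one_div, inv_pow,
    ← Real.rpow_natCast r 5, ← Real.rpow_neg hr.le]
  norm_num

lemma five_bound {a b : ℝ} (ha : 0 ≤ a) (hb : 0 ≤ b) :
    a * b * (a + b) * (a ^ 2 + b ^ 2) ≤ 4 * (a ^ 5 + b ^ 5) := by
  rcases le_total a b with h | h
  · calc a * b * (a + b) * (a ^ 2 + b ^ 2) ≤ b * b * (b + b) * (b ^ 2 + b ^ 2) := by gcongr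
      _ = 4 * b ^ 5 := by ring
      _ ≤ _ := by nlinarith [pow_nonneg ha 5]
  · calc a * b * (a + b) * (a ^ 2 + b ^ 2) ≤ a * a * (a + a) * (a ^ 2 + a ^ 2) := by gcongr
      _ = 4 * a ^ 5 := by ring
      _ ≤ _ := by nlinarith [pow_nonneg hb 5]

lemma three_bound {a b : ℝ} (ha : 0 ≤ a) (hb : 0 ≤ b) :
    a ^ 3 * (a + b) ^ 2 ≤ 4 * (a ^ 5 + b ^ 5) := by
  rcases le_total a b with h | h
  · calc a ^ 3 * (a + b) ^ 2 ≤ b ^ 3 * (b + b) ^ 2 := by gcongr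
      _ = 4 * b ^ 5 := by ring
      _ ≤ _ := by nlinarith [pow_nonneg ha 5]
  · calc a ^ 3 * (a + b) ^ 2 ≤ a ^ 3 * (a + a) ^ 2 := by gcongr
      _ = 4 * a ^ 5 := by ring
      _ ≤ _ := by nlinarith [pow_nonneg hb 5]

/-- the Coulomb field kernel -/
def KK (z : R3) : R3 := (1 / ‖z‖ ^ 3) • z

lemma KK_sub_sq {z z' : R3} (hz : z ≠ 0) (hz' : z' ≠ 0) :
    ‖KK z - KK z'‖ ^ 2 = ‖z - z'‖ ^ 2 * (1 / ‖z‖) ^ 3 * (1 / ‖z'‖) ^ 3
      + (1 / ‖z‖ - 1 / ‖z'‖) ^ 2 *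
        ((1 / ‖z‖) ^ 2 + (1 / ‖z‖) * (1 / ‖z'‖) + (1 / ‖z'‖) ^ 2) := by
  have hr : 0 < ‖z‖ := norm_pos_iff.2 hz
  have hr' : 0 < ‖z'‖ := norm_pos_iff.2 hz'
  unfold KK
  rw [@norm_sub_sq_real, @norm_sub_sq_real, norm_smul, norm_smul, real_inner_smul_left,
    real_inner_smul_right, Real.norm_of_nonneg (by positivity), Real.norm_of_nonneg (by positivity)]
  generalize ⟪z, z'⟫ = p
  generalize ‖z‖ = r at *
  generalize ‖z'‖ = r' at *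
  field_simp
  ring

lemma inv_sub_le {z z' : R3} (hz : z ≠ 0) (hz' : z' ≠ 0) :
    |1 / ‖z‖ - 1 / ‖z'‖| ≤ ‖z - z'‖ * (1 / ‖z‖) * (1 / ‖z'‖) := by
  have hr : 0 < ‖z‖ := norm_pos_iff.2 hz
  have hr' : 0 < ‖z'‖ := norm_pos_iff.2 hz'
  have h1 : |‖z'‖ - ‖z‖| ≤ ‖z - z'‖ := by
    rw [abs_sub_comm]; exact abs_norm_sub_norm_le z z'
  have e : 1 / ‖z‖ - 1 / ‖z'‖ = (‖z'‖ - ‖z‖) * (1 / ‖z‖) * (1 / ‖z'‖) := by
    field_simp
  rw [e, abs_mul, abs_mul, abs_of_pos (by positivity : 0 < 1 / ‖z‖),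
    abs_of_pos (by positivity : 0 < 1 / ‖z'‖)]
  gcongr

lemma norm_KK {z : R3} (hz : z ≠ 0) : ‖KK z‖ = (1 / ‖z‖) ^ 2 := by
  have hr : 0 < ‖z‖ := norm_pos_iff.2 hz
  unfold KK
  rw [norm_smul, Real.norm_of_nonneg (by positivity)]
  field_simp

/-- **Hölder bound of the field kernel** -/
lemma KK_holder {z z' : R3} (hz : z ≠ 0) (hz' : z' ≠ 0) :
    ‖KK z - KK z'‖ ≤ 2 * Real.sqrt ‖z - z'‖ * (hp ‖z‖ + hp ‖z'‖) := by
  have hr : 0 < ‖z‖ := norm_pos_iff.2 hz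
  have hr' : 0 < ‖z'‖ := norm_pos_iff.2 hz'
  have hd : 0 ≤ ‖z - z'‖ := norm_nonneg _
  have h1 := KK_sub_sq hz hz'
  have h2 := inv_sub_le hz hz'
  have h3 : ‖KK z - KK z'‖ ≤ (1 / ‖z‖) ^ 2 + (1 / ‖z'‖) ^ 2 := by
    refine (norm_sub_le _ _).trans ?_
    rw [norm_KK hz, norm_KK hz']
  have e1 := hp_sq hr
  have e2 := hp_sq hr'
  have p1 := hp_nonneg hr.le
  have p2 := hp_nonneg hr'.le
  have ha : 0 ≤ 1 / ‖z‖ := by positivity
  have hb : 0 ≤ 1 / ‖z'‖ := by positivity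
  have hk : 0 ≤ ‖KK z - KK z'‖ := norm_nonneg _
  generalize ‖KK z - KK z'‖ = k at *
  generalize 1 / ‖z‖ = a at *
  generalize 1 / ‖z'‖ = b at *
  generalize hp ‖z‖ = p at *
  generalize hp ‖z'‖ = p' at *
  generalize ‖z - z'‖ = d at *
  have h4 : (a - b) ^ 2 ≤ (d * a * b) ^ 2 := by
    rw [← sq_abs]; exact pow_le_pow_left₀ (abs_nonneg _) h2 2
  have h5 : k ^ 2 ≤ (d * (a * b * (a + b))) ^ 2 := by
    have : 0 ≤ a ^ 2 + a * b + b ^ 2 := by positivity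
    have h6 := mul_le_mul_of_nonneg_right h4 this
    calc k ^ 2 ≤ d ^ 2 * a ^ 3 * b ^ 3 + (d * a * b) ^ 2 * (a ^ 2 + a * b + b ^ 2) := by
          rw [h1]; linarith
      _ = _ := by ring
  have h6 : k ≤ d * (a * b * (a + b)) :=
    (sq_le_sq₀ hk (by positivity)).1 h5
  have h7 : k ^ 2 ≤ d * (4 * (a ^ 5 + b ^ 5)) := by
    calc k ^ 2 = k * k := by ring
      _ ≤ (d * (a * b * (a + b))) * (a ^ 2 + b ^ 2) := mul_le_mul h6 h3 hk (by positivity)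
      _ = d * (a * b * (a + b) * (a ^ 2 + b ^ 2)) := by ring
      _ ≤ _ := mul_le_mul_of_nonneg_left (five_bound ha hb) hd
  refine (sq_le_sq₀ hk (by positivity)).1 (h7.trans ?_)
  have h8 : (2 * Real.sqrt d * (p + p')) ^ 2 = 4 * d * (p + p') ^ 2 := by
    rw [mul_pow, mul_pow, Real.sq_sqrt hd]; ring
  rw [h8]
  have h9 : a ^ 5 + b ^ 5 ≤ (p + p') ^ 2 := by
    rw [← e1, ← e2]; nlinarith [mul_nonneg p1 p2]
  calc d * (4 * (a ^ 5 + b ^ 5)) = 4 * d * (a ^ 5 + b ^ 5) := by ring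
    _ ≤ _ := mul_le_mul_of_nonneg_left h9 (by positivity)

/-- first order expansion of the potential kernel -/
lemma kernel_first {v s : R3} (hv : v ≠ 0) (hv' : v - s ≠ 0) :
    |1 / ‖v - s‖ - 1 / ‖v‖ - ⟪KK v, s⟫|
      ≤ 2 * (‖s‖ * Real.sqrt ‖s‖) * (hp ‖v‖ + hp ‖v - s‖) := by
  have hr : 0 < ‖v‖ := norm_pos_iff.2 hv
  have hr' : 0 < ‖v - s‖ := norm_pos_iff.2 hv'
  have hs : 0 ≤ ‖s‖ := norm_nonneg _
  have hd : ‖v - s‖ ^ 2 = ‖v‖ ^ 2 - 2 * ⟪v, s⟫ + ‖s‖ ^ 2 := by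
    rw [@norm_sub_sq_real]
  have hin : ⟪KK v, s⟫ = ⟪v, s⟫ * (1 / ‖v‖) ^ 3 := by
    unfold KK; rw [real_inner_smul_left]; field_simp
  have hp1 : |⟪v, s⟫| ≤ ‖v‖ * ‖s‖ := abs_real_inner_le_norm v s
  have h1 : |‖v‖ - ‖v - s‖| ≤ ‖s‖ := by
    have := abs_norm_sub_norm_le v (v - s)
    rwa [sub_sub_cancel] at this
  have e1 := hp_sq hr
  have e2 := hp_sq hr'
  have p1 := hp_nonneg hr.le
  have p2 := hp_nonneg hr'.le
  rw [hin]
  generalize hp ‖v‖ = p at *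
  generalize hp ‖v - s‖ = p' at *
  generalize ⟪v, s⟫ = w at *
  generalize ‖v‖ = r at *
  generalize ‖v - s‖ = r' at *
  generalize ‖s‖ = σ at *
  obtain ⟨a, ha⟩ : ∃ a, a = 1 / r := ⟨_, rfl⟩
  obtain ⟨b, hb⟩ : ∃ b, b = 1 / r' := ⟨_, rfl⟩
  have ha0 : 0 < a := by rw [ha]; positivity
  have hb0 : 0 < b := by rw [hb]; positivity
  obtain ⟨h1a, h1b⟩ := abs_le.1 h1
  have hsq : (r - r') ^ 2 ≤ σ ^ 2 := sq_le_sq' h1a h1b
  have hw : w = (r ^ 2 - r' ^ 2 + σ ^ 2) / 2 := by linarith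
  have eD : 1 / r' - 1 / r - w * (1 / r) ^ 3
      = ((r - r') ^ 2 * (2 * r + r') - r' * σ ^ 2) / (2 * r ^ 3 * r') := by
    rw [hw]; field_simp; ring
  have hD1 : |1 / r' - 1 / r - w * (1 / r) ^ 3| ≤ σ ^ 2 * (a ^ 2 * (b + a)) := by
    have e3 : σ ^ 2 * (a ^ 2 * (b + a)) = σ ^ 2 * (2 * r + 2 * r') / (2 * r ^ 3 * r') := by
      rw [ha, hb]; field_simp
    rw [eD, e3, abs_div, abs_of_pos (by positivity : 0 < 2 * r ^ 3 * r')]
    apply div_le_div_of_nonneg_right _ (by positivity)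
    have q1 : (r - r') ^ 2 * (2 * r + r') ≤ σ ^ 2 * (2 * r + r') :=
      mul_le_mul_of_nonneg_right hsq (by positivity)
    have q2 : 0 ≤ (r - r') ^ 2 * (2 * r + r') := by positivity
    have q3 : 0 ≤ σ ^ 2 * r := by positivity
    have q4 : 0 ≤ σ ^ 2 * r' := by positivity
    rw [abs_le]; constructor <;> nlinarith
  have hD2 : |1 / r' - 1 / r - w * (1 / r) ^ 3| ≤ σ * (a * (b + a)) := by
    have q1 : |1 / r' - 1 / r| ≤ σ * (a * b) := by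
      have : 1 / r' - 1 / r = (r - r') * (a * b) := by rw [ha, hb]; field_simp
      rw [this, abs_mul, abs_of_pos (by positivity : 0 < a * b)]
      exact mul_le_mul_of_nonneg_right h1 (by positivity)
    have q2 : |w * (1 / r) ^ 3| ≤ σ * (a * a) := by
      rw [abs_mul, abs_of_pos (by positivity : 0 < (1 / r) ^ 3)]
      calc |w| * (1 / r) ^ 3 ≤ r * σ * (1 / r) ^ 3 := mul_le_mul_of_nonneg_right hp1 (by positivity)
        _ = σ * (a * a) := by rw [ha]; field_simp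
    calc _ ≤ |1 / r' - 1 / r| + |w * (1 / r) ^ 3| := abs_sub _ _
      _ ≤ _ := by linarith
  have hD : 0 ≤ |1 / r' - 1 / r - w * (1 / r) ^ 3| := abs_nonneg _
  generalize |1 / r' - 1 / r - w * (1 / r) ^ 3| = D at *
  have h7 : D ^ 2 ≤ σ ^ 3 * (4 * (a ^ 5 + b ^ 5)) := by
    calc D ^ 2 = D * D := by ring
      _ ≤ (σ ^ 2 * (a ^ 2 * (b + a))) * (σ * (a * (b + a))) :=
          mul_le_mul hD1 hD2 hD (by positivity)
      _ = σ ^ 3 * (a ^ 3 * (a + b) ^ 2) := by ring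
      _ ≤ _ := mul_le_mul_of_nonneg_left (three_bound ha0.le hb0.le) (by positivity)
  refine (sq_le_sq₀ hD (by positivity)).1 (h7.trans ?_)
  have h8 : (2 * (σ * Real.sqrt σ) * (p + p')) ^ 2 = 4 * σ ^ 3 * (p + p') ^ 2 := by
    rw [mul_pow, mul_pow, mul_pow, Real.sq_sqrt hs]; ring
  rw [h8]
  have h9 : a ^ 5 + b ^ 5 ≤ (p + p') ^ 2 := by
    rw [ha, hb, ← e1, ← e2]; nlinarith [mul_nonneg p1 p2]
  calc σ ^ 3 * (4 * (a ^ 5 + b ^ 5)) = 4 * σ ^ 3 * (a ^ 5 + b ^ 5) := by ring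
    _ ≤ _ := mul_le_mul_of_nonneg_left h9 (by positivity)

end

end Vale.Agent.P370.H696
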