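import Vale.Agent.P370.H198.Final
import Vale.Agent.P370.H696.Disp2

/-! Block R2b, unconditional. -/

namespace Vale.Agent.P370.H696

/-- **Block R2b**: the one-body potential of the displaced lattice of unit charges. -/
theorem latticeStmt : H198.LatticeStmt := H198.latticeStmt_of_disp dispStmt

end Vale.Agent.P370.H696
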